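import Vale.Agent.P367.SE.Defs

/-!
# P367, state evolution: facts about Gaussian vectors and product measures
-/

open MeasureTheory ProbabilityTheory Matrix Filter Topology

namespace Vale.Agent.P367.SE

variable {X : Type} {n : ℕ}

instance ga_prob (ι : Type) [Fintype ι] : IsProbabilityMeasure (gau ι) := by
  unfold gau
  infer_instance

/-! ### Linear images of standard Gaussian vectors -/

theorem ga_charDual {ι : Type} [Fintype ι] [DecidableEq ι] (L : StrongDual ℝ (ι → ℝ)) :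
    charFunDual (gau ι) L =
      Complex.exp (-((∑ i, (L (Pi.single i 1)) ^ 2 : ℝ) : ℂ) / 2) := by
  unfold gau
  rw [charFunDual_pi]
  have h : ∀ i, charFunDual (gaussianReal 0 1) (L.comp (.single ℝ (fun _ => ℝ) i)) =
      Complex.exp (-(((L (Pi.single i 1)) ^ 2 : ℝ) : ℂ) / 2) := by
    intro i
    have e : ∀ v : ℝ, (L.comp (ContinuousLinearMap.single ℝ (fun _ => ℝ) i)) v =
        L (Pi.single i 1) * v := by
      intro v
      have h1 : (Pi.single i v : ι → ℝ) = v • Pi.single i (1 : ℝ) := by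
        rw [← Pi.single_smul, smul_eq_mul, mul_one]
      show L (Pi.single i v) = _
      rw [h1, map_smul, smul_eq_mul, mul_comm]
    have h2 := charFun_gaussianReal (μ := 0) (v := 1) (L (Pi.single i 1))
    rw [charFun_apply_real] at h2
    rw [charFunDual_apply]
    simp only [e]
    push_cast at h2 ⊢
    rw [h2]
    congr 1
    ring
  rw [Finset.prod_congr rfl fun i _ => h i, ← Complex.exp_sum]
  congr 1
  push_cast
  rw [← Finset.sum_div, Finset.sum_neg_distrib]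

theorem ga_dual {ι : Type} [Fintype ι] [DecidableEq ι] (L : StrongDual ℝ (ι → ℝ)) (y : ι → ℝ) :
    L y = (fun i => L (Pi.single i 1)) ⬝ᵥ y := by
  conv_lhs => rw [← Finset.univ_sum_single y, map_sum]
  refine Finset.sum_congr rfl fun i _ => ?_
  have h1 : (Pi.single i (y i) : ι → ℝ) = y i • Pi.single i (1 : ℝ) := by
    rw [← Pi.single_smul, smul_eq_mul, mul_one]
  rw [h1, map_smul, smul_eq_mul, mul_comm]

theorem ga_map {ι κ : Type} [Fintype ι] [Fintype κ] (T : (κ → ℝ) →ₗ[ℝ] (ι → ℝ))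
    (A : (ι → ℝ) → κ → ℝ) (hA : ∀ l x, l ⬝ᵥ T x = A l ⬝ᵥ x) (h : ∀ l, A l ⬝ᵥ A l = l ⬝ᵥ l) :
    (gau κ).map T = gau ι := by
  classical
  have hT : (T : (κ → ℝ) → ι → ℝ) = LinearMap.toContinuousLinearMap T := rfl
  rw [hT]
  have : IsProbabilityMeasure ((gau κ).map (LinearMap.toContinuousLinearMap T)) :=
    Measure.isProbabilityMeasure_map (LinearMap.toContinuousLinearMap T).continuous.aemeasurable
  apply Measure.ext_of_charFunDual
  ext L
  rw [charFunDual_map, ga_charDual, ga_charDual]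
  have h1 : ∀ j, (L.comp (LinearMap.toContinuousLinearMap T)) (Pi.single j 1) =
      A (fun i => L (Pi.single i 1)) j := by
    intro j
    show L (T (Pi.single j 1)) = _
    rw [ga_dual L, hA, dotProduct_single, mul_one]
  simp only [h1]
  have h2 := h (fun i => L (Pi.single i 1))
  simp only [dotProduct, ← pow_two] at h2
  rw [h2]

theorem ga_map2 {ι κ κ' : Type} [Fintype ι] [Fintype κ] [Fintype κ']
    (T : (κ → ℝ) × (κ' → ℝ) →ₗ[ℝ] (ι → ℝ))
    (A : (ι → ℝ) → κ → ℝ) (B : (ι → ℝ) → κ' → ℝ)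
    (hA : ∀ l x, l ⬝ᵥ T x = A l ⬝ᵥ x.1 + B l ⬝ᵥ x.2)
    (h : ∀ l, A l ⬝ᵥ A l + B l ⬝ᵥ B l = l ⬝ᵥ l) :
    ((gau κ).prod (gau κ')).map T = gau ι := by
  classical
  have hT : (T : (κ → ℝ) × (κ' → ℝ) → ι → ℝ) = LinearMap.toContinuousLinearMap T := rfl
  rw [hT]
  have : IsProbabilityMeasure
      (((gau κ).prod (gau κ')).map (LinearMap.toContinuousLinearMap T)) :=
    Measure.isProbabilityMeasure_map (LinearMap.toContinuousLinearMap T).continuous.aemeasurable
  apply Measure.ext_of_charFunDual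
  ext L
  rw [charFunDual_map, charFunDual_prod, ga_charDual, ga_charDual, ga_charDual,
    ← Complex.exp_add]
  have h1 : ∀ j, ((L.comp (LinearMap.toContinuousLinearMap T)).comp
      (.inl ℝ (κ → ℝ) (κ' → ℝ))) (Pi.single j 1) = A (fun i => L (Pi.single i 1)) j := by
    intro j
    show L (T (Pi.single j 1, 0)) = _
    rw [ga_dual L, hA, dotProduct_single, mul_one, dotProduct_zero, add_zero]
  have h3 : ∀ j, ((L.comp (LinearMap.toContinuousLinearMap T)).comp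
      (.inr ℝ (κ → ℝ) (κ' → ℝ))) (Pi.single j 1) = B (fun i => L (Pi.single i 1)) j := by
    intro j
    show L (T (0, Pi.single j 1)) = _
    rw [ga_dual L, hA, dotProduct_single, mul_one, dotProduct_zero, zero_add]
  simp only [h1, h3]
  have h2 := h (fun i => L (Pi.single i 1))
  simp only [dotProduct, ← pow_two] at h2
  rw [← h2]
  congr 1
  push_cast
  ring

/-! ### Resampling -/

/-- the disorder as a matrix -/
def ga_M (a : Ix n → ℝ) : Matrix (Fin n) (Fin n) ℝ := Matrix.of fun i j => a (i, j)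

theorem ga_sw (P : Matrix (Fin n) (Fin n) ℝ) (a : Ix n → ℝ) (e : Ix n) :
    sw P a e = (P * ga_M a * P) e.1 e.2 := rfl

theorem ga_M_sw (P : Matrix (Fin n) (Fin n) ℝ) (a : Ix n → ℝ) : ga_M (sw P a) = P * ga_M a * P := by
  ext i j
  rfl

theorem ga_M_add (a b : Ix n → ℝ) : ga_M (a + b) = ga_M a + ga_M b := rfl

theorem ga_M_smul (c : ℝ) (a : Ix n → ℝ) : ga_M (c • a) = c • ga_M a := rfl

theorem ga_sw_add (P : Matrix (Fin n) (Fin n) ℝ) (a b : Ix n → ℝ) :
    sw P (a + b) = sw P a + sw P b := by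
  funext e
  rw [Pi.add_apply, ga_sw, ga_sw, ga_sw, ga_M_add, Matrix.mul_add, Matrix.add_mul,
    Matrix.add_apply]

theorem ga_sw_smul (P : Matrix (Fin n) (Fin n) ℝ) (c : ℝ) (a : Ix n → ℝ) :
    sw P (c • a) = c • sw P a := by
  funext e
  rw [Pi.smul_apply, ga_sw, ga_sw, ga_M_smul, Matrix.mul_smul, Matrix.smul_mul,
    Matrix.smul_apply]

theorem ga_dot (a b : Ix n → ℝ) : a ⬝ᵥ b = ((ga_M a)ᵀ * ga_M b).trace := by
  rw [Matrix.trace]
  simp only [Matrix.diag_apply, Matrix.mul_apply, Matrix.transpose_apply, ga_M, Matrix.of_apply,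
    dotProduct, Fintype.sum_prod_type]
  exact Finset.sum_comm

theorem ga_sw_adj (P : Matrix (Fin n) (Fin n) ℝ) (hP : Pᵀ = P) (a b : Ix n → ℝ) :
    a ⬝ᵥ sw P b = sw P a ⬝ᵥ b := by
  rw [ga_dot, ga_dot, ga_M_sw, ga_M_sw, Matrix.transpose_mul, Matrix.transpose_mul, hP]
  rw [← Matrix.mul_assoc, Matrix.trace_mul_comm, ← Matrix.mul_assoc, ← Matrix.mul_assoc,
    ← Matrix.mul_assoc]

theorem ga_sw_idem (P : Matrix (Fin n) (Fin n) ℝ) (hP2 : P * P = P) (a : Ix n → ℝ) :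
    sw P (sw P a) = sw P a := by
  funext e
  rw [ga_sw, ga_sw, ga_M_sw]
  have : P * (P * ga_M a * P) * P = (P * P) * ga_M a * (P * P) := by
    simp only [Matrix.mul_assoc]
  rw [this, hP2]

theorem gau_resample (P : Matrix (Fin n) (Fin n) ℝ) (hP : Pᵀ = P) (hP2 : P * P = P) :
    ((gau (Ix n)).prod (gau (Ix n))).map (fun q => q.1 - sw P q.1 + sw P q.2) = gau (Ix n) := by
  refine ga_map2
    { toFun := fun q => q.1 - sw P q.1 + sw P q.2
      map_add' := fun q q' => by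
        rw [Prod.fst_add, Prod.snd_add, ga_sw_add, ga_sw_add]
        abel
      map_smul' := fun c q => by
        rw [Prod.smul_fst, Prod.smul_snd, ga_sw_smul, ga_sw_smul, RingHom.id_apply, smul_add,
          smul_sub] } (fun l => l - sw P l) (fun l => sw P l) ?_ ?_
  · intro l x
    show l ⬝ᵥ (x.1 - sw P x.1 + sw P x.2) = _
    rw [dotProduct_add, dotProduct_sub, ga_sw_adj P hP, ga_sw_adj P hP, sub_dotProduct]
  · intro l
    have h1 : sw P l ⬝ᵥ sw P l = l ⬝ᵥ sw P l := by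
      rw [← ga_sw_adj P hP, ga_sw_idem P hP2]
    have h2 : sw P l ⬝ᵥ l = l ⬝ᵥ sw P l := dotProduct_comm _ _
    rw [sub_dotProduct, dotProduct_sub, dotProduct_sub, h1, h2]
    ring

/-! ### The form `x · W(a) w` -/

theorem ga_form (x w : Fin n → ℝ) (a : Ix n → ℝ) :
    x ⬝ᵥ (Wm n a *ᵥ w) = (√(2 * (n : ℝ)))⁻¹ *
      ((fun e : Ix n => x e.1 * w e.2 + w e.1 * x e.2) ⬝ᵥ a) := by
  simp only [dotProduct, Matrix.mulVec, Wm, Matrix.of_apply, Fintype.sum_prod_type,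
    Finset.mul_sum]
  have h1 : ∀ i j, x i * ((a (i, j) + a (j, i)) / √(2 * (n : ℝ)) * w j) =
      (√(2 * (n : ℝ)))⁻¹ * (x i * w j * a (i, j)) +
        (√(2 * (n : ℝ)))⁻¹ * (x i * w j * a (j, i)) := by
    intro i j
    rw [div_eq_mul_inv]
    ring
  simp only [h1, Finset.sum_add_distrib]
  rw [Finset.sum_comm (f := fun i j => (√(2 * (n : ℝ)))⁻¹ * (x i * w j * a (j, i))),
    ← Finset.sum_add_distrib]
  refine Finset.sum_congr rfl fun i _ => ?_
  rw [← Finset.sum_add_distrib]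
  refine Finset.sum_congr rfl fun j _ => ?_
  ring

theorem ga_norm (x y w z : Fin n → ℝ) :
    (fun e : Ix n => x e.1 * w e.2) ⬝ᵥ (fun e : Ix n => y e.1 * z e.2) =
      (x ⬝ᵥ y) * (w ⬝ᵥ z) := by
  simp only [dotProduct, Fintype.sum_prod_type, Finset.sum_mul_sum]
  refine Finset.sum_congr rfl fun i _ => Finset.sum_congr rfl fun j _ => ?_
  ring

theorem ga_Wm_add (a b : Ix n → ℝ) : Wm n (a + b) = Wm n a + Wm n b := by
  ext i j
  simp only [Wm, Matrix.of_apply, Matrix.add_apply, Pi.add_apply]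
  ring

theorem ga_Wm_smul (c : ℝ) (a : Ix n → ℝ) : Wm n (c • a) = c • Wm n a := by
  ext i j
  simp only [Wm, Matrix.of_apply, Matrix.smul_apply, Pi.smul_apply, smul_eq_mul]
  ring

theorem ga_Gv_add (w : Fin n → ℝ) (a b : Ix n → ℝ) : Gv w (a + b) = Gv w a + Gv w b := by
  simp only [Gv, ga_Wm_add, Matrix.add_mulVec, smul_add, dotProduct_add, mul_add, add_smul]
  abel

theorem ga_Gv_smul (w : Fin n → ℝ) (c : ℝ) (a : Ix n → ℝ) : Gv w (c • a) = c • Gv w a := by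
  have h : √(n : ℝ) • ((c • Wm n a) *ᵥ w) = c • (√(n : ℝ) • (Wm n a *ᵥ w)) := by
    rw [Matrix.smul_mulVec, smul_comm]
  unfold Gv
  rw [ga_Wm_smul, h, dotProduct_smul, smul_sub, smul_smul c _ w, smul_eq_mul]
  congr 2
  ring

theorem gau_Gv (hn : 0 < n) (w : Fin n → ℝ) (hw : w ⬝ᵥ w = 1) :
    (gau (Ix n)).map (Gv w) = gau (Fin n) := by
  have hn0 : (0 : ℝ) < n := by exact_mod_cast hn
  have h2 : √(2 * (n : ℝ)) = √2 * √(n : ℝ) := Real.sqrt_mul (by norm_num) _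
  have hs2 : √(2 : ℝ) ^ 2 = 2 := Real.sq_sqrt (by norm_num)
  have hs2' : √(2 : ℝ) ≠ 0 := by positivity
  have hsn : √(n : ℝ) ≠ 0 := by positivity
  have hc : √(n : ℝ) * (√(2 * (n : ℝ)))⁻¹ = (√2)⁻¹ := by
    rw [h2]
    field_simp
  refine ga_map
    { toFun := Gv w
      map_add' := ga_Gv_add w
      map_smul' := fun c a => by rw [ga_Gv_smul, RingHom.id_apply] }
    (fun l => (√2)⁻¹ • (fun e : Ix n => l e.1 * w e.2 + w e.1 * l e.2) -
      ((1 - (√2)⁻¹) * √2 * (w ⬝ᵥ l)) • (fun e : Ix n => w e.1 * w e.2)) ?_ ?_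
  · intro l x
    show l ⬝ᵥ Gv w x = _
    unfold Gv
    rw [dotProduct_sub, dotProduct_smul, dotProduct_smul, dotProduct_smul, ga_form, ga_form,
      sub_dotProduct, smul_dotProduct, smul_dotProduct]
    have h3 : (fun e : Ix n => w e.1 * w e.2 + w e.1 * w e.2) ⬝ᵥ x =
        2 * ((fun e : Ix n => w e.1 * w e.2) ⬝ᵥ x) := by
      simp only [dotProduct, Finset.mul_sum]
      refine Finset.sum_congr rfl fun e _ => ?_
      ring
    rw [h3, dotProduct_comm l w]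
    simp only [smul_eq_mul]
    generalize (fun e : Ix n => w e.1 * w e.2) ⬝ᵥ x = p
    generalize (fun e : Ix n => l e.1 * w e.2 + w e.1 * l e.2) ⬝ᵥ x = q
    generalize w ⬝ᵥ l = r
    rw [← mul_assoc (√(n : ℝ)), hc, ← mul_assoc (√(n : ℝ)), hc]
    have h4 : (√(2 : ℝ))⁻¹ * 2 = √2 := by
      field_simp
      exact hs2.symm
    linear_combination (-(1 - (√(2 : ℝ))⁻¹) * p * r) * h4
  · intro l
    have e1 : (fun e : Ix n => l e.1 * w e.2 + w e.1 * l e.2) =
        (fun e : Ix n => l e.1 * w e.2) + (fun e : Ix n => w e.1 * l e.2) := rfl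
    rw [e1]
    simp only [sub_dotProduct, dotProduct_sub, smul_dotProduct, dotProduct_smul, add_dotProduct,
      dotProduct_add, smul_eq_mul, ga_norm, hw, dotProduct_comm l w]
    generalize w ⬝ᵥ l = r
    generalize l ⬝ᵥ l = q
    have h5 : (√(2 : ℝ))⁻¹ * √2 = 1 := by field_simp
    have h6 : (√(2 : ℝ))⁻¹ ^ 2 = 1 / 2 := by
      rw [inv_pow, hs2, one_div]
    generalize (√(2 : ℝ))⁻¹ = c at *
    generalize √(2 : ℝ) = d at *
    linear_combination (2 * q + 2 * r ^ 2 + 2 * r ^ 2) * h6 + (-4 * (1 - c) * r ^ 2) * h5 +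
      ((1 - c) ^ 2 * r ^ 2) * hs2

/-! ### Second moments -/

theorem ga_pi {ι Ω : Type} [Fintype ι] [MeasurableSpace Ω] (μ : Measure Ω)
    [IsProbabilityMeasure μ] (Y : ι → Ω → ℝ) (h : ∀ i, MemLp (Y i) 2 μ) :
    Integrable (fun y : ι → Ω => (∑ i, Y i (y i) - ∑ i, ∫ ω, Y i ω ∂μ) ^ 2)
      (Measure.pi fun _ => μ) ∧
    ∫ y : ι → Ω, (∑ i, Y i (y i) - ∑ i, ∫ ω, Y i ω ∂μ) ^ 2 ∂(Measure.pi fun _ => μ) =
      ∑ i, Var[Y i; μ] := by
  have hm : ∀ i, MemLp (fun y : ι → Ω => Y i (y i)) 2 (Measure.pi fun _ => μ) := fun i =>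
    (h i).comp_measurePreserving (measurePreserving_eval (fun _ : ι => μ) i)
  have hs : MemLp (fun y : ι → Ω => ∑ i, Y i (y i)) 2 (Measure.pi fun _ => μ) :=
    memLp_finsetSum Finset.univ fun i _ => hm i
  have hi : ∫ y : ι → Ω, ∑ i, Y i (y i) ∂(Measure.pi fun _ => μ) = ∑ i, ∫ ω, Y i ω ∂μ := by
    rw [integral_finsetSum _ fun i _ => (hm i).integrable one_le_two]
    refine Finset.sum_congr rfl fun i _ => ?_
    exact integral_comp_eval (μ := fun _ : ι => μ) (h i).aestronglyMeasurable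
  refine ⟨(hs.sub (memLp_const _)).integrable_sq, ?_⟩
  have h1 := variance_sum_pi (μ := fun _ : ι => μ) h
  have h2 : (∑ i, fun ω : ι → Ω => Y i (ω i)) = fun ω => ∑ i, Y i (ω i) := by
    funext ω
    rw [Finset.sum_apply]
  rw [h2, variance_eq_integral hs.aestronglyMeasurable.aemeasurable, hi] at h1
  exact h1

theorem ga_sq {ι : Type} [Fintype ι] (v : ι → ℝ) :
    Integrable (fun a : ι → ℝ => (v ⬝ᵥ a) ^ 2) (gau ι) ∧
    ∫ a : ι → ℝ, (v ⬝ᵥ a) ^ 2 ∂(gau ι) = v ⬝ᵥ v := by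
  have hL : ∀ i, MemLp (fun x : ℝ => v i * x) 2 (gaussianReal 0 1) := fun i =>
    (memLp_id_gaussianReal' 2 (by norm_num)).const_mul (v i)
  have h0 : ∀ i, ∫ x, v i * x ∂(gaussianReal 0 1) = 0 := fun i => by
    rw [integral_const_mul, integral_id_gaussianReal, mul_zero]
  have h1 := ga_pi (gaussianReal 0 1) (fun i x => v i * x) hL
  have h2 : ∀ i, Var[fun x : ℝ => v i * x; gaussianReal 0 1] = v i * v i := fun i => by
    have h3 : Var[fun x : ℝ => x; gaussianReal 0 1] = 1 := by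
      have := variance_id_gaussianReal (μ := 0) (v := 1)
      exact this
    rw [variance_const_mul, h3]
    ring
  simp only [h0, h2, Finset.sum_const_zero, sub_zero] at h1
  exact h1

/-- quadratic form moment -/
theorem form_sq (hn : 0 < n) (x w : Fin n → ℝ) :
    Integrable (fun a => (x ⬝ᵥ (Wm n a *ᵥ w)) ^ 2) (gau (Ix n)) ∧
    ∫ a, (x ⬝ᵥ (Wm n a *ᵥ w)) ^ 2 ∂(gau (Ix n)) ≤ 2 / n * ((x ⬝ᵥ x) * (w ⬝ᵥ w)) := by
  have hn0 : (0 : ℝ) < n := by exact_mod_cast hn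
  have h1 := ga_sq (fun e : Ix n => x e.1 * w e.2 + w e.1 * x e.2)
  simp only [ga_form, mul_pow]
  refine ⟨h1.1.const_mul _, ?_⟩
  rw [integral_const_mul, h1.2]
  have e1 : (fun e : Ix n => x e.1 * w e.2 + w e.1 * x e.2) =
      (fun e : Ix n => x e.1 * w e.2) + (fun e : Ix n => w e.1 * x e.2) := rfl
  rw [e1]
  simp only [add_dotProduct, dotProduct_add, ga_norm, inv_pow]
  rw [Real.sq_sqrt (by positivity), dotProduct_comm w x]
  have h2 : (x ⬝ᵥ w) * (x ⬝ᵥ w) ≤ (x ⬝ᵥ x) * (w ⬝ᵥ w) := by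
    simp only [dotProduct]
    have := Finset.sum_mul_sq_le_sq_mul_sq Finset.univ x w
    simp only [pow_two] at this
    exact this
  have h3 : (2 * (n : ℝ))⁻¹ * ((x ⬝ᵥ x) * (w ⬝ᵥ w) + (x ⬝ᵥ w) * (x ⬝ᵥ w) +
      ((x ⬝ᵥ w) * (x ⬝ᵥ w) + (w ⬝ᵥ w) * (x ⬝ᵥ x))) =
      (n : ℝ)⁻¹ * ((x ⬝ᵥ x) * (w ⬝ᵥ w) + (x ⬝ᵥ w) * (x ⬝ᵥ w)) := by
    field_simp
    ring
  have h4 : (n : ℝ)⁻¹ * ((x ⬝ᵥ x) * (w ⬝ᵥ w) + (x ⬝ᵥ w) * (x ⬝ᵥ w)) ≤
      (n : ℝ)⁻¹ * ((x ⬝ᵥ x) * (w ⬝ᵥ w) + (x ⬝ᵥ x) * (w ⬝ᵥ w)) := by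
    gcongr
  have h5 : (n : ℝ)⁻¹ * ((x ⬝ᵥ x) * (w ⬝ᵥ w) + (x ⬝ᵥ x) * (w ⬝ᵥ w)) =
      2 / n * ((x ⬝ᵥ x) * (w ⬝ᵥ w)) := by
    field_simp
    ring
  linarith

/-- law of large numbers -/
theorem lln [MeasurableSpace X] (ν : Measure X) [IsProbabilityMeasure ν] (hn : 0 < n)
    (Ψ : X × (ℕ → ℝ) → ℝ) (h : MemLp Ψ 2 (rho ν)) :
    Integrable (fun y => ((n : ℝ)⁻¹ * ∑ i, Ψ (y i) - ∫ ω, Ψ ω ∂(rho ν)) ^ 2) (rhon ν n) ∧
    ∫ y, ((n : ℝ)⁻¹ * ∑ i, Ψ (y i) - ∫ ω, Ψ ω ∂(rho ν)) ^ 2 ∂(rhon ν n) ≤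
      (n : ℝ)⁻¹ * ∫ ω, Ψ ω ^ 2 ∂(rho ν) := by
  have hn0 : (n : ℝ) ≠ 0 := by
    have : (0 : ℝ) < n := by exact_mod_cast hn
    exact this.ne'
  have : IsProbabilityMeasure (rho ν) := by
    unfold rho
    infer_instance
  have h1 := ga_pi (ι := Fin n) (rho ν) (fun _ ω => (n : ℝ)⁻¹ * Ψ ω) fun _ => h.const_mul _
  have h2 : ∑ _i : Fin n, ∫ ω, (n : ℝ)⁻¹ * Ψ ω ∂(rho ν) = ∫ ω, Ψ ω ∂(rho ν) := by
    rw [Finset.sum_const, Finset.card_univ, Fintype.card_fin, integral_const_mul, nsmul_eq_mul,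
      ← mul_assoc, mul_inv_cancel₀ hn0, one_mul]
  simp only [← Finset.mul_sum] at h1
  rw [h2] at h1
  refine ⟨h1.1, ?_⟩
  unfold rhon
  rw [h1.2, Finset.sum_const, Finset.card_univ, Fintype.card_fin, variance_const_mul, nsmul_eq_mul]
  have h3 : Var[Ψ; rho ν] ≤ ∫ ω, Ψ ω ^ 2 ∂(rho ν) := by
    rw [variance_eq_sub h]
    have : 0 ≤ (∫ ω, Ψ ω ∂(rho ν)) ^ 2 := sq_nonneg _
    have e : ∫ ω, (Ψ ^ 2) ω ∂(rho ν) = ∫ ω, Ψ ω ^ 2 ∂(rho ν) := rfl
    rw [e]
    linarith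
  have h4 : (n : ℝ) * ((n : ℝ)⁻¹ ^ 2 * Var[Ψ; rho ν]) = (n : ℝ)⁻¹ * Var[Ψ; rho ν] := by
    field_simp
  rw [h4]
  gcongr

/-! ### Replacing one Gaussian in every row -/

theorem ga_upd (N : Measure ℝ) [IsProbabilityMeasure N] (k : ℕ) :
    MeasurePreserving (fun p : (ℕ → ℝ) × ℝ => Function.update p.1 k p.2)
      ((Measure.infinitePi fun _ : ℕ => N).prod N) (Measure.infinitePi fun _ : ℕ => N) := by
  have hm : Measurable (fun p : (ℕ → ℝ) × ℝ => Function.update p.1 k p.2) := by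
    refine measurable_pi_lambda _ fun i => ?_
    by_cases hi : i = k
    · subst hi
      simp only [Function.update_self]
      exact measurable_snd
    · simp only [Function.update_of_ne hi]
      exact (measurable_pi_apply i).comp measurable_fst
  refine ⟨hm, ?_⟩
  refine Measure.eq_infinitePi (fun _ : ℕ => N) fun s t ht => ?_
  rw [Measure.map_apply hm (MeasurableSet.pi s.countable_toSet fun i _ => ht i)]
  by_cases hk : k ∈ s
  · have e : (fun p : (ℕ → ℝ) × ℝ => Function.update p.1 k p.2) ⁻¹' (Set.pi s t) =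
        (Set.pi (s.erase k) t) ×ˢ (t k) := by
      ext p
      simp only [Set.mem_preimage, Set.mem_pi, Finset.mem_coe, Set.mem_prod, Finset.mem_erase]
      constructor
      · intro h
        refine ⟨fun i hi => ?_, ?_⟩
        · have := h i hi.2
          rwa [Function.update_of_ne hi.1] at this
        · have := h k hk
          rwa [Function.update_self] at this
      · intro h i hi
        by_cases hik : i = k
        · subst hik
          rw [Function.update_self]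
          exact h.2
        · rw [Function.update_of_ne hik]
          exact h.1 i ⟨hik, hi⟩
    rw [e, Measure.prod_prod, Measure.infinitePi_pi _ fun i _ => ht i,
      Finset.prod_erase_mul s (fun i => N (t i)) hk]
  · have e : (fun p : (ℕ → ℝ) × ℝ => Function.update p.1 k p.2) ⁻¹' (Set.pi s t) =
        (Set.pi s t) ×ˢ Set.univ := by
      ext p
      simp only [Set.mem_preimage, Set.mem_pi, Finset.mem_coe, Set.mem_prod, Set.mem_univ,
        and_true]
      refine forall_congr' fun i => ?_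
      refine imp_congr_right fun hi => ?_
      have hik : i ≠ k := fun h => hk (by rw [← h]; exact hi)
      rw [Function.update_of_ne hik]
    rw [e, Measure.prod_prod, Measure.infinitePi_pi _ fun i _ => ht i, measure_univ, mul_one]

theorem ga_row [MeasurableSpace X] (ν : Measure X) [IsProbabilityMeasure ν] (k : ℕ) :
    MeasurePreserving (fun p : (X × (ℕ → ℝ)) × ℝ => (p.1.1, Function.update p.1.2 k p.2))
      ((rho ν).prod (gaussianReal 0 1)) (rho ν) := by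
  have h1 := (measurePreserving_prodAssoc ν (Measure.infinitePi fun _ : ℕ => gaussianReal 0 1)
    (gaussianReal 0 1))
  have h2 := (MeasurePreserving.id ν).prod (ga_upd (gaussianReal 0 1) k)
  exact h2.comp h1

theorem upd_law [MeasurableSpace X] (ν : Measure X) [IsProbabilityMeasure ν] (k : ℕ) :
    ((rhon ν n).prod (gau (Fin n))).map (fun q => upd k q.1 q.2) = rhon ν n := by
  have : IsProbabilityMeasure (rho ν) := by
    unfold rho
    infer_instance
  have h1 := measurePreserving_arrowProdEquivProdArrow (X × (ℕ → ℝ)) ℝ (Fin n)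
    (fun _ => rho ν) (fun _ => gaussianReal 0 1)
  have h2 := ga_row ν k
  have hm : Measurable (fun q : (Fin n → X × (ℕ → ℝ)) × (Fin n → ℝ) => upd k q.1 q.2) := by
    refine measurable_pi_lambda _ fun i => ?_
    have h3 : Measurable (fun q : (Fin n → X × (ℕ → ℝ)) × (Fin n → ℝ) => (q.1 i, q.2 i)) :=
      ((measurable_pi_apply i).comp measurable_fst).prodMk
        ((measurable_pi_apply i).comp measurable_snd)
    exact h2.measurable.comp h3
  unfold rhon gau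
  rw [← h1.map_eq, Measure.map_map hm h1.measurable]
  have e : ((fun q : (Fin n → X × (ℕ → ℝ)) × (Fin n → ℝ) => upd k q.1 q.2) ∘
      (MeasurableEquiv.arrowProdEquivProdArrow (X × (ℕ → ℝ)) ℝ (Fin n))) =
      fun (x : Fin n → (X × (ℕ → ℝ)) × ℝ) i => ((x i).1.1, Function.update (x i).1.2 k (x i).2) :=
    rfl
  rw [e]
  have : ∀ _i : Fin n, SigmaFinite (((rho ν).prod (gaussianReal 0 1)).map
      (fun p : (X × (ℕ → ℝ)) × ℝ => (p.1.1, Function.update p.1.2 k p.2))) := fun _ => by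
    rw [h2.map_eq]
    infer_instance
  rw [Measure.pi_map_pi (μ := fun _ : Fin n => (rho ν).prod (gaussianReal 0 1))
    (f := fun _ (p : (X × (ℕ → ℝ)) × ℝ) => (p.1.1, Function.update p.1.2 k p.2))
    fun _ => h2.measurable.aemeasurable]
  rw [h2.map_eq]

end Vale.Agent.P367.SE
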