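import Vale.Agent.P367.SE.CondB
import Vale.Agent.P367.SE.Gauss

/-!
# P367, state evolution: resampling of the unobserved part, laws of the coupling
-/

open MeasureTheory ProbabilityTheory Matrix Filter Topology
open scoped ENNReal

namespace Vale.Agent.P367.SE

variable {X : Type} {n : ℕ}

instance isProb_gau (ι : Type) [Fintype ι] : IsProbabilityMeasure (gau ι) := by
  unfold gau; infer_instance

section instances
variable [MeasurableSpace X] (ν : Measure X) [IsProbabilityMeasure ν]

instance isProb_rho : IsProbabilityMeasure (rho ν) := by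
  unfold rho; infer_instance

instance isProb_rhon : IsProbabilityMeasure (rhon ν n) := by
  unfold rhon; infer_instance

instance isProb_mun : IsProbabilityMeasure (mun ν n) := by
  unfold mun; infer_instance

end instances

theorem lint_map2 {α β γ : Type} [MeasurableSpace α] [MeasurableSpace β] [MeasurableSpace γ]
    (μ : Measure α) (ν : Measure β) [SFinite ν] {Φ : α × β → γ} (hΦ : Measurable Φ)
    {φ : γ → ℝ≥0∞} (hφ : Measurable φ) :
    ∫⁻ c, φ c ∂((μ.prod ν).map Φ) = ∫⁻ a, ∫⁻ b, φ (Φ (a, b)) ∂ν ∂μ := by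
  rw [lintegral_map hφ hΦ]
  exact lintegral_prod (fun z => φ (Φ z)) (hφ.comp hΦ).aemeasurable

theorem meas_swap (Q : Matrix (Fin n) (Fin n) ℝ) :
    Measurable fun q : (Ix n → ℝ) × (Ix n → ℝ) => q.1 - sw Q q.1 + sw Q q.2 := by
  have h1 : Measurable fun q : (Ix n → ℝ) × (Ix n → ℝ) => q.1 := measurable_fst
  have h2 : Measurable fun q : (Ix n → ℝ) × (Ix n → ℝ) => q.2 := measurable_snd
  have h3 : Measurable fun q : (Ix n → ℝ) × (Ix n → ℝ) => sw Q q.1 :=
    meas_sw (P := fun _ => Q) (fun _ _ => measurable_const) h1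
  have h4 : Measurable fun q : (Ix n → ℝ) × (Ix n → ℝ) => sw Q q.2 :=
    meas_sw (P := fun _ => Q) (fun _ _ => measurable_const) h2
  exact (h1.sub h3).add h4

variable (f : (t : ℕ) → X → (Fin t → ℝ) → ℝ)
variable [MeasurableSpace X] (hf : ∀ t, Measurable (Function.uncurry (f t)))
include hf

/-- resampling, for fixed labels -/
theorem resample_fix (v : Fin n → X) (k : ℕ) : ∀ F : (Ix n → ℝ) → ℝ≥0∞, Measurable F →
    ∫⁻ V, ∫⁻ b, F (Rs f k ((v, V), b)).2 ∂(gau (Ix n)) ∂(gau (Ix n)) = ∫⁻ V, F V ∂(gau (Ix n)) := by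
  induction k with
  | zero =>
    intro F hF
    have h1 : ∀ V b : Ix n → ℝ, (Rs f 0 ((v, V), b)).2 = b := by
      intro V b
      show V - sw 1 V + sw 1 b = b
      rw [sw_one, sw_one, sub_self, zero_add]
    simp only [h1]
    rw [lintegral_const, measure_univ, mul_one]
  | succ k ih =>
    intro F hF
    have hR : Measurable fun q : (Ix n → ℝ) × (Ix n → ℝ) => (Rs f (k + 1) ((v, q.1), q.2)).2 :=
      measurable_snd.comp ((meas_Rs f hf (k + 1)).comp
        ((measurable_const.prodMk measurable_fst).prodMk measurable_snd))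
    have hR0 : ∀ V : Ix n → ℝ, Measurable fun b : Ix n → ℝ => (Rs f k ((v, V), b)).2 := fun V =>
      measurable_snd.comp ((meas_Rs f hf k).comp (measurable_const.prodMk measurable_id))
    have hG : Measurable fun V => ∫⁻ a, F (Rs f (k + 1) ((v, V), a)).2 ∂(gau (Ix n)) :=
      (hF.comp hR).lintegral_prod_right'
    refine (ih _ hG).symm.trans (Eq.trans ?_ (ih F hF))
    refine lintegral_congr fun V => ?_
    have hQ := gau_resample (Pm f (Wm n V) v (k + 1)) (Pm_symm _ _ _ _) (Pm_idem _ _ _ _)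
    have hRR : ∀ b a : Ix n → ℝ, (Rs f (k + 1) ((v, (Rs f k ((v, V), b)).2), a)).2 =
        (Rs f k ((v, V), b - sw (Pm f (Wm n V) v (k + 1)) b +
          sw (Pm f (Wm n V) v (k + 1)) a)).2 := fun b a =>
      congrArg Prod.snd (Rs_Rs f k v V b a)
    have hm : Measurable fun q : (Ix n → ℝ) × (Ix n → ℝ) =>
        q.1 - sw (Pm f (Wm n V) v (k + 1)) q.1 + sw (Pm f (Wm n V) v (k + 1)) q.2 :=
      meas_swap (Pm f (Wm n V) v (k + 1))
    have hφ : Measurable fun c : Ix n → ℝ => F (Rs f k ((v, V), c)).2 := hF.comp (hR0 V)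
    have h1 := lint_map2 (gau (Ix n)) (gau (Ix n)) hm hφ
    rw [hQ] at h1
    rw [h1]
    refine lintegral_congr fun b => lintegral_congr fun a => ?_
    rw [hRR b a]

/-- **resampling** -/
theorem resample (ν : Measure X) [IsProbabilityMeasure ν] (k : ℕ) :
    ((mun ν n).prod (gau (Ix n))).map (Rs f k) = mun ν n := by
  refine Measure.ext_of_lintegral _ fun F hF => ?_
  rw [lint_map2 _ _ (meas_Rs f hf k) hF]
  unfold mun
  have h1 : Measurable fun p : (Fin n → X) × (Ix n → ℝ) =>
      ∫⁻ b, F (Rs f k (p, b)) ∂(gau (Ix n)) :=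
    (hF.comp (meas_Rs f hf k)).lintegral_prod_right'
  rw [lintegral_prod _ h1.aemeasurable, lintegral_prod _ hF.aemeasurable]
  congr 1
  funext v
  have h2 : ∀ V b : Ix n → ℝ, Rs f k ((v, V), b) = (v, (Rs f k ((v, V), b)).2) :=
    fun V b => rfl
  exact resample_fix f hf v k (fun V => F (v, V)) (hF.comp (measurable_const.prodMk measurable_id))

theorem isProb_Pk (ν : Measure X) [IsProbabilityMeasure ν] (k : ℕ) :
    IsProbabilityMeasure (Pk ν f n k) := by
  induction k with
  | zero => unfold Pk; infer_instance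
  | succ k ih =>
    unfold Pk
    exact Measure.isProbabilityMeasure_map (meas_Ph f hf k).aemeasurable

omit hf in
theorem rhon_lab (ν : Measure X) [IsProbabilityMeasure ν] :
    (rhon ν n).map lab = Measure.pi fun _ => ν := by
  have h : (rho ν).map Prod.fst = ν := by
    unfold rho
    rw [Measure.map_fst_prod, measure_univ, one_smul]
  unfold rhon lab
  have h0 : IsProbabilityMeasure ((rho ν).map Prod.fst) :=
    Measure.isProbabilityMeasure_map measurable_fst.aemeasurable
  have h1 := Measure.pi_map_pi (μ := fun _ : Fin n => rho ν)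
    (f := fun _ : Fin n => (Prod.fst : X × (ℕ → ℝ) → X)) (fun _ => measurable_fst.aemeasurable)
  rw [h] at h1
  exact h1

theorem Pk_lab (ν : Measure X) [IsProbabilityMeasure ν] (k : ℕ) :
    (Pk ν f n k).map (fun q => (lab q.1, q.2)) = mun ν n := by
  have hlab : Measurable fun q : (Fin n → X × (ℕ → ℝ)) × (Ix n → ℝ) => (lab q.1, q.2) :=
    (meas_lab.comp measurable_fst).prodMk measurable_snd
  induction k with
  | zero =>
    unfold Pk mun
    rw [← rhon_lab ν]
    have := Measure.map_prod_map (rhon ν n) (gau (Ix n)) meas_lab measurable_id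
    rw [Measure.map_id] at this
    rw [this]
    rfl
  | succ k ih =>
    have := isProb_Pk (n := n) f hf ν k
    have hl : Measurable fun q : ((Fin n → X × (ℕ → ℝ)) × (Ix n → ℝ)) × (Ix n → ℝ) =>
        ((lab q.1.1, q.1.2), q.2) := (hlab.comp measurable_fst).prodMk measurable_snd
    have h1 : (fun q : (Fin n → X × (ℕ → ℝ)) × (Ix n → ℝ) => (lab q.1, q.2)) ∘ Ph f k =
        Rs f k ∘ fun q : ((Fin n → X × (ℕ → ℝ)) × (Ix n → ℝ)) × (Ix n → ℝ) =>
          ((lab q.1.1, q.1.2), q.2) := by
      funext q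
      rfl
    have h2 : ((Pk ν f n k).prod (gau (Ix n))).map
        (fun q : ((Fin n → X × (ℕ → ℝ)) × (Ix n → ℝ)) × (Ix n → ℝ) =>
          ((lab q.1.1, q.1.2), q.2)) = (mun ν n).prod (gau (Ix n)) := by
      rw [← ih]
      have := Measure.map_prod_map (Pk ν f n k) (gau (Ix n)) hlab measurable_id
      rw [Measure.map_id] at this
      rw [this]
      rfl
    show (((Pk ν f n k).prod (gau (Ix n))).map (Ph f k)).map _ = _
    rw [Measure.map_map hlab (meas_Ph f hf k), h1, ← Measure.map_map (meas_Rs f hf k) hl, h2,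
      resample f hf ν k]

theorem Pk_rows (hn : 0 < n) (ν : Measure X) [IsProbabilityMeasure ν] (k : ℕ) :
    (Pk ν f n k).map (fun q => q.1) = rhon ν n := by
  induction k with
  | zero =>
    unfold Pk
    have := Measure.map_fst_prod (μ := rhon ν n) (ν := gau (Ix n))
    rw [measure_univ, one_smul] at this
    exact this
  | succ k ih =>
    have := isProb_Pk (n := n) f hf ν k
    show (((Pk ν f n k).prod (gau (Ix n))).map (Ph f k)).map _ = _
    rw [Measure.map_map measurable_fst (meas_Ph f hf k)]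
    refine Measure.ext_of_lintegral _ fun F hF => ?_
    rw [lint_map2 _ _ (measurable_fst.comp (meas_Ph f hf k)) hF]
    have hU := upd_law (n := n) ν k
    have hu : Measurable fun q : (Fin n → X × (ℕ → ℝ)) × (Fin n → ℝ) => upd k q.1 q.2 :=
      meas_upd k
    have h3 : ∀ p : (Fin n → X × (ℕ → ℝ)) × (Ix n → ℝ),
        ∫⁻ a, F ((Prod.fst ∘ Ph f k) (p, a)) ∂(gau (Ix n)) =
          ∫⁻ g, F (upd k p.1 g) ∂(gau (Fin n)) := by
      intro p
      have hw := nz_unit hn (Pm f (Wm n p.2) (lab p.1) k *ᵥ mv f (Wm n p.2) (lab p.1) k)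
      have hp : Measurable fun g : Fin n → ℝ => upd k p.1 g :=
        hu.comp (measurable_const.prodMk measurable_id)
      have hp2 : Measurable fun g : Fin n → ℝ => F (upd k p.1 g) := hF.comp hp
      have hG : Measurable (Gv (nz (Pm f (Wm n p.2) (lab p.1) k *ᵥ
          mv f (Wm n p.2) (lab p.1) k))) :=
        meas_Gv (α := Ix n → ℝ) measurable_const measurable_id
      rw [← gau_Gv hn _ hw, lintegral_map hp2 hG]
      rfl
    have h5 : Measurable fun y : Fin n → X × (ℕ → ℝ) => ∫⁻ g, F (upd k y g) ∂(gau (Fin n)) :=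
      (hF.comp hu).lintegral_prod_right'
    calc _ = ∫⁻ p, ∫⁻ g, F (upd k p.1 g) ∂(gau (Fin n)) ∂(Pk ν f n k) :=
          lintegral_congr h3
      _ = ∫⁻ y, ∫⁻ g, F (upd k y g) ∂(gau (Fin n)) ∂(rhon ν n) := by
          rw [← ih, lintegral_map h5 measurable_fst]
      _ = ∫⁻ y, F y ∂(rhon ν n) := by
          conv_rhs => rw [← hU]
          exact (lint_map2 _ _ hu hF).symm

end Vale.Agent.P367.SE
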