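import Vale.Agent.P367.SE.Defs

/-!
# P367, state evolution: the projections on the unobserved part
-/

open MeasureTheory ProbabilityTheory Matrix Filter Topology

namespace Vale.Agent.P367.SE

variable {X : Type} {n : ℕ}

/-! ### Linear algebra -/

/-- the matrix of the disorder variables -/
def mt (a : Ix n → ℝ) : Matrix (Fin n) (Fin n) ℝ := Matrix.of fun i j => a (i, j)

theorem mt_sw (P : Matrix (Fin n) (Fin n) ℝ) (a : Ix n → ℝ) : mt (sw P a) = P * mt a * P := by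
  ext i j
  rfl

theorem mt_inj {a b : Ix n → ℝ} (h : mt a = mt b) : a = b := by
  funext e
  exact congrFun (congrFun h e.1) e.2

theorem mt_add (a b : Ix n → ℝ) : mt (a + b) = mt a + mt b := by ext i j; rfl

theorem mt_sub (a b : Ix n → ℝ) : mt (a - b) = mt a - mt b := by ext i j; rfl

theorem Wm_eq (n : ℕ) (a : Ix n → ℝ) :
    Wm n a = (√(2 * (n : ℝ)))⁻¹ • (mt a + (mt a)ᵀ) := by
  ext i j
  simp only [Wm, mt, Matrix.of_apply, Matrix.smul_apply, Matrix.add_apply, Matrix.transpose_apply,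
    smul_eq_mul]
  rw [div_eq_inv_mul]

theorem Wm_symm (n : ℕ) (a : Ix n → ℝ) : (Wm n a)ᵀ = Wm n a := by
  rw [Wm_eq, Matrix.transpose_smul, Matrix.transpose_add, Matrix.transpose_transpose, add_comm]

theorem Wm_sw {P : Matrix (Fin n) (Fin n) ℝ} (hP : Pᵀ = P) (a : Ix n → ℝ) :
    Wm n (sw P a) = P * Wm n a * P := by
  rw [Wm_eq, Wm_eq, mt_sw, Matrix.transpose_mul, Matrix.transpose_mul, hP, Matrix.mul_smul,
    Matrix.smul_mul, mul_add, add_mul, ← Matrix.mul_assoc]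

theorem Wm_add (n : ℕ) (a b : Ix n → ℝ) : Wm n (a + b) = Wm n a + Wm n b := by
  rw [Wm_eq, Wm_eq, Wm_eq, mt_add, Matrix.transpose_add, ← smul_add]
  congr 1
  abel

theorem Wm_sub (n : ℕ) (a b : Ix n → ℝ) : Wm n (a - b) = Wm n a - Wm n b := by
  rw [Wm_eq, Wm_eq, Wm_eq, mt_sub, Matrix.transpose_sub, ← smul_sub]
  congr 1
  abel

theorem sw_add (P : Matrix (Fin n) (Fin n) ℝ) (a b : Ix n → ℝ) :
    sw P (a + b) = sw P a + sw P b := by
  apply mt_inj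
  rw [mt_add, mt_sw, mt_sw, mt_sw, mt_add, mul_add, add_mul]

theorem sw_sub (P : Matrix (Fin n) (Fin n) ℝ) (a b : Ix n → ℝ) :
    sw P (a - b) = sw P a - sw P b := by
  apply mt_inj
  rw [mt_sub, mt_sw, mt_sw, mt_sw, mt_sub, mul_sub, sub_mul]

theorem sw_sw {P Q : Matrix (Fin n) (Fin n) ℝ} (h : P * Q = Q) (h' : Q * P = Q) (a : Ix n → ℝ) :
    sw P (sw Q a) = sw Q a := by
  apply mt_inj
  rw [mt_sw, mt_sw]
  calc P * (Q * mt a * Q) * P = (P * Q) * mt a * (Q * P) := by simp only [Matrix.mul_assoc]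
    _ = Q * mt a * Q := by rw [h, h']

theorem sw_sw' {P Q : Matrix (Fin n) (Fin n) ℝ} (h : P * Q = Q) (h' : Q * P = Q) (a : Ix n → ℝ) :
    sw Q (sw P a) = sw Q a := by
  apply mt_inj
  rw [mt_sw, mt_sw, mt_sw]
  calc Q * (P * mt a * P) * Q = (Q * P) * mt a * (P * Q) := by simp only [Matrix.mul_assoc]
    _ = Q * mt a * Q := by rw [h, h']

theorem sw_one (a : Ix n → ℝ) : sw 1 a = a := by
  apply mt_inj
  rw [mt_sw, one_mul, mul_one]

/-! ### The projections -/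

variable (f : (t : ℕ) → X → (Fin t → ℝ) → ℝ) (W : Matrix (Fin n) (Fin n) ℝ) (u : Fin n → X)

theorem Pm_succ (k : ℕ) : Pm f W u (k + 1) = Pm f W u k -
    (Pm f W u k *ᵥ mv f W u k ⬝ᵥ Pm f W u k *ᵥ mv f W u k)⁻¹ •
      vecMulVec (Pm f W u k *ᵥ mv f W u k) (Pm f W u k *ᵥ mv f W u k) := rfl

theorem Pm_symm (k : ℕ) : (Pm f W u k)ᵀ = Pm f W u k := by
  induction k with
  | zero => exact Matrix.transpose_one
  | succ k ih =>
    rw [Pm_succ, Matrix.transpose_sub, Matrix.transpose_smul, ih, Matrix.transpose_vecMulVec]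

/-- abstract step -/
theorem step_mul {P : Matrix (Fin n) (Fin n) ℝ} (hP : Pᵀ = P) {p : Fin n → ℝ} (hp : P *ᵥ p = p)
    (c : ℝ) : (c • vecMulVec p p) * P = c • vecMulVec p p := by
  rw [Matrix.smul_mul, Matrix.vecMulVec_mul, ← Matrix.mulVec_transpose, hP, hp]

theorem step_mul' {P : Matrix (Fin n) (Fin n) ℝ} {p : Fin n → ℝ} (hp : P *ᵥ p = p)
    (c : ℝ) : P * (c • vecMulVec p p) = c • vecMulVec p p := by
  rw [Matrix.mul_smul, Matrix.mul_vecMulVec, hp]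

theorem step_sq (p : Fin n → ℝ) :
    ((p ⬝ᵥ p)⁻¹ • vecMulVec p p) * ((p ⬝ᵥ p)⁻¹ • vecMulVec p p) =
      (p ⬝ᵥ p)⁻¹ • vecMulVec p p := by
  rw [Matrix.smul_mul, Matrix.mul_smul, Matrix.vecMulVec_mul_vecMulVec, Matrix.vecMulVec_smul]
  by_cases h : p ⬝ᵥ p = 0
  · rw [h]; simp
  · rw [smul_smul (p ⬝ᵥ p)⁻¹ (p ⬝ᵥ p), inv_mul_cancel₀ h, one_smul]

theorem Pm_idem (k : ℕ) : Pm f W u k * Pm f W u k = Pm f W u k := by
  induction k with
  | zero => exact one_mul _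
  | succ k ih =>
    rw [Pm_succ]
    set P := Pm f W u k with hP
    set p := P *ᵥ mv f W u k with hp
    have h1 : P *ᵥ p = p := by rw [hp, Matrix.mulVec_mulVec, ih]
    rw [sub_mul, mul_sub, mul_sub, ih, step_mul (Pm_symm f W u k) h1, step_mul' h1, step_sq]
    abel

theorem Pm_fix (k : ℕ) : Pm f W u k *ᵥ (Pm f W u k *ᵥ mv f W u k) = Pm f W u k *ᵥ mv f W u k := by
  rw [Matrix.mulVec_mulVec, Pm_idem]

theorem Pm_mul (k : ℕ) : Pm f W u (k + 1) * Pm f W u k = Pm f W u (k + 1) := by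
  rw [Pm_succ, sub_mul, Pm_idem, step_mul (Pm_symm f W u k) (Pm_fix f W u k)]

theorem Pm_mul' (k : ℕ) : Pm f W u k * Pm f W u (k + 1) = Pm f W u (k + 1) := by
  rw [Pm_succ, mul_sub, Pm_idem, step_mul' (Pm_fix f W u k)]

theorem dot_Pm (k : ℕ) (x y : Fin n → ℝ) : (Pm f W u k *ᵥ x) ⬝ᵥ y = x ⬝ᵥ (Pm f W u k *ᵥ y) := by
  rw [Matrix.dotProduct_mulVec, ← Matrix.mulVec_transpose, Pm_symm]

theorem Pm_mv {k s : ℕ} (h : s < k) : Pm f W u k *ᵥ mv f W u s = 0 := by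
  induction k with
  | zero => omega
  | succ k ih =>
    rw [Pm_succ, Matrix.sub_mulVec, Matrix.smul_mulVec, Matrix.vecMulVec_mulVec]
    rcases Nat.lt_succ_iff_lt_or_eq.1 h with h' | h'
    · have h0 : (Pm f W u k *ᵥ mv f W u k) ⬝ᵥ mv f W u s = 0 := by
        rw [dot_Pm, ih h', dotProduct_zero]
      rw [ih h', h0]
      simp
    · subst h'
      set p := Pm f W u s *ᵥ mv f W u s with hp
      have h1 : p ⬝ᵥ mv f W u s = p ⬝ᵥ p := by
        conv_lhs => rw [hp, ← Pm_fix f W u s, dot_Pm]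
      rw [h1]
      by_cases h2 : p ⬝ᵥ p = 0
      · have h3 : p = 0 := by
          rwa [dotProduct_self_eq_zero] at h2
        rw [h3]
        simp
      · rw [show MulOpposite.op (p ⬝ᵥ p) • p = (p ⬝ᵥ p) • p from by
          funext i; simp [mul_comm], smul_smul, inv_mul_cancel₀ h2, one_smul, sub_self]

theorem mv_congr {W' : Matrix (Fin n) (Fin n) ℝ} {k : ℕ}
    (h : ∀ s < k, W' *ᵥ mv f W u s = W *ᵥ mv f W u s) : ∀ s ≤ k, mv f W' u s = mv f W u s := by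
  intro s
  induction s using Nat.strong_induction_on with
  | _ s ih =>
    intro hs
    funext i
    rw [mv, mv]
    congr 1
    funext r
    rw [ih r r.2 (by have := r.2; omega), h r (by have := r.2; omega)]

theorem Pm_congr {W' : Matrix (Fin n) (Fin n) ℝ} {k : ℕ}
    (h : ∀ s < k, W' *ᵥ mv f W u s = W *ᵥ mv f W u s) :
    ∀ s ≤ k + 1, Pm f W' u s = Pm f W u s := by
  intro s
  induction s with
  | zero => intro _; rfl
  | succ s ih =>
    intro hs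
    rw [Pm_succ, Pm_succ, ih (by omega), mv_congr f W u h s (by omega)]

/-! ### The resampled disorder -/

theorem Wm_Rs (k : ℕ) (q : ((Fin n → X) × (Ix n → ℝ)) × (Ix n → ℝ)) :
    Wm n (Rs f k q).2 = Wm n q.1.2 -
      Pm f (Wm n q.1.2) q.1.1 k * Wm n q.1.2 * Pm f (Wm n q.1.2) q.1.1 k +
      Pm f (Wm n q.1.2) q.1.1 k * Wm n q.2 * Pm f (Wm n q.1.2) q.1.1 k := by
  unfold Rs
  rw [Wm_add, Wm_sub, Wm_sw (Pm_symm _ _ _ _), Wm_sw (Pm_symm _ _ _ _)]

/-- the resampled matrix agrees with the old one on `m^0, .., m^(k-1)` -/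
theorem Rs_mv (k : ℕ) (q : ((Fin n → X) × (Ix n → ℝ)) × (Ix n → ℝ)) {s : ℕ} (hs : s < k) :
    Wm n (Rs f k q).2 *ᵥ mv f (Wm n q.1.2) q.1.1 s =
      Wm n q.1.2 *ᵥ mv f (Wm n q.1.2) q.1.1 s := by
  have h1 : ∀ A : Matrix (Fin n) (Fin n) ℝ, (A * Pm f (Wm n q.1.2) q.1.1 k) *ᵥ
      mv f (Wm n q.1.2) q.1.1 s = 0 := by
    intro A
    rw [← Matrix.mulVec_mulVec, Pm_mv f _ _ hs, Matrix.mulVec_zero]
  rw [Wm_Rs, Matrix.add_mulVec, Matrix.sub_mulVec, h1, h1, sub_zero, add_zero]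

/-- decomposition of the resampled matrix -/
theorem Rs_Pm (k : ℕ) (q : ((Fin n → X) × (Ix n → ℝ)) × (Ix n → ℝ)) :
    Pm f (Wm n q.1.2) q.1.1 k * Wm n (Rs f k q).2 * Pm f (Wm n q.1.2) q.1.1 k =
      Pm f (Wm n q.1.2) q.1.1 k * Wm n q.2 * Pm f (Wm n q.1.2) q.1.1 k := by
  rw [Wm_Rs]
  set P := Pm f (Wm n q.1.2) q.1.1 k with hP
  have h : P * P = P := Pm_idem _ _ _ _
  have h1 : ∀ A : Matrix (Fin n) (Fin n) ℝ, P * (P * A * P) * P = P * A * P := by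
    intro A
    calc P * (P * A * P) * P = (P * P) * A * (P * P) := by simp only [Matrix.mul_assoc]
      _ = P * A * P := by rw [h]
  rw [mul_add, mul_sub, add_mul, sub_mul, h1, h1]
  abel

/-- the key identity of the induction for `resample` -/
theorem Rs_Rs (k : ℕ) (v : Fin n → X) (V b a : Ix n → ℝ) :
    Rs f (k + 1) (Rs f k ((v, V), b), a) =
      Rs f k ((v, V), b - sw (Pm f (Wm n V) v (k + 1)) b + sw (Pm f (Wm n V) v (k + 1)) a) := by
  have h1 : Pm f (Wm n (Rs f k ((v, V), b)).2) v (k + 1) = Pm f (Wm n V) v (k + 1) :=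
    Pm_congr f (Wm n V) v (k := k) (fun s hs => Rs_mv f k ((v, V), b) hs) (k + 1) le_rfl
  set P := Pm f (Wm n V) v k with hP
  set Q := Pm f (Wm n V) v (k + 1) with hQ
  have hPQ : P * Q = Q := Pm_mul' _ _ _ _
  have hQP : Q * P = Q := Pm_mul _ _ _ _
  refine Prod.ext rfl ?_
  show (Rs f k ((v, V), b)).2 - sw (Pm f (Wm n (Rs f k ((v, V), b)).2) v (k + 1))
    (Rs f k ((v, V), b)).2 + sw (Pm f (Wm n (Rs f k ((v, V), b)).2) v (k + 1)) a =
    V - sw P V + sw P (b - sw Q b + sw Q a)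
  rw [h1]
  show (V - sw P V + sw P b) - sw Q (V - sw P V + sw P b) + sw Q a =
    V - sw P V + sw P (b - sw Q b + sw Q a)
  rw [sw_add Q, sw_sub Q, sw_sw' hPQ hQP, sw_sw' hPQ hQP, sw_add P, sw_sub P, sw_sw hPQ hQP,
    sw_sw hPQ hQP]
  abel

end Vale.Agent.P367.SE
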