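import Vale.Agent.P367.SE.CondA

/-!
# P367, state evolution: measurability of the iterates and of the resampling maps
-/

open MeasureTheory ProbabilityTheory Matrix Filter Topology

namespace Vale.Agent.P367.SE

variable {X : Type} {n : ℕ}

/-! ### Unit vectors -/

theorem nz_unit (hn : 0 < n) (v : Fin n → ℝ) : nz v ⬝ᵥ nz v = 1 := by
  unfold nz
  split_ifs with h
  · rw [dotProduct, Finset.sum_eq_single (⟨0, hn⟩ : Fin n)]
    · simp
    · intro b _ hb
      have : (b : ℕ) ≠ 0 := fun h0 => hb (Fin.ext h0)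
      simp [this]
    · intro h0
      exact absurd (Finset.mem_univ _) h0
  · have h1 : v ⬝ᵥ v ≠ 0 := fun h0 => h (dotProduct_self_eq_zero.1 h0)
    have h2 : 0 ≤ v ⬝ᵥ v := by
      rw [dotProduct]
      exact Finset.sum_nonneg fun i _ => mul_self_nonneg (v i)
    rw [smul_dotProduct, dotProduct_smul, smul_eq_mul, smul_eq_mul, ← mul_assoc, ← mul_inv,
      Real.mul_self_sqrt h2, inv_mul_cancel₀ h1]

/-! ### General measurability lemmas -/

variable {α : Type} [MeasurableSpace α]

theorem meas_mulVec {A : α → Matrix (Fin n) (Fin n) ℝ} {v : α → Fin n → ℝ}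
    (hA : ∀ i j, Measurable fun q => A q i j) (hv : Measurable v) :
    Measurable fun q => A q *ᵥ v q := by
  refine measurable_pi_lambda _ fun i => ?_
  simp only [Matrix.mulVec, dotProduct]
  exact Finset.measurable_sum _ fun j _ => (hA i j).mul ((measurable_pi_apply j).comp hv)

theorem meas_dot {v w : α → Fin n → ℝ} (hv : Measurable v) (hw : Measurable w) :
    Measurable fun q => v q ⬝ᵥ w q := by
  simp only [dotProduct]
  exact Finset.measurable_sum _ fun j _ =>
    ((measurable_pi_apply j).comp hv).mul ((measurable_pi_apply j).comp hw)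

theorem meas_mul {A B : α → Matrix (Fin n) (Fin n) ℝ}
    (hA : ∀ i j, Measurable fun q => A q i j) (hB : ∀ i j, Measurable fun q => B q i j)
    (i j : Fin n) : Measurable fun q => (A q * B q) i j := by
  simp only [Matrix.mul_apply]
  exact Finset.measurable_sum _ fun k _ => (hA i k).mul (hB k j)

theorem meas_Wm' (i j : Fin n) : Measurable fun a : Ix n → ℝ => Wm n a i j := by
  simp only [Wm, Matrix.of_apply]
  exact ((measurable_pi_apply (i, j)).add (measurable_pi_apply (j, i))).div_const _

theorem meas_Wm {a : α → Ix n → ℝ} (ha : Measurable a) (i j : Fin n) :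
    Measurable fun q => Wm n (a q) i j := (meas_Wm' i j).comp ha

theorem meas_sw {P : α → Matrix (Fin n) (Fin n) ℝ} {a : α → Ix n → ℝ}
    (hP : ∀ i j, Measurable fun q => P q i j) (ha : Measurable a) :
    Measurable fun q => sw (P q) (a q) := by
  refine measurable_pi_lambda _ fun e => ?_
  exact meas_mul (meas_mul hP fun i j => (measurable_pi_apply (i, j)).comp ha) hP e.1 e.2

theorem meas_nz : Measurable (nz : (Fin n → ℝ) → Fin n → ℝ) := by
  have h1 : Measurable fun v : Fin n → ℝ => (√(v ⬝ᵥ v))⁻¹ :=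
    (Real.continuous_sqrt.measurable.comp (meas_dot measurable_id measurable_id)).inv
  have h2 : Measurable fun v : Fin n → ℝ => (√(v ⬝ᵥ v))⁻¹ • v :=
    measurable_pi_lambda _ fun i => h1.mul (measurable_pi_apply i)
  unfold nz
  exact Measurable.ite (measurableSet_singleton 0) measurable_const h2

theorem meas_Gv {w : α → Fin n → ℝ} {a : α → Ix n → ℝ} (hw : Measurable w) (ha : Measurable a) :
    Measurable fun q => Gv (w q) (a q) := by
  unfold Gv
  have h1 : Measurable fun q => √n • (Wm n (a q) *ᵥ w q) :=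
    measurable_pi_lambda _ fun i => ((measurable_pi_apply i).comp
      (meas_mulVec (fun i j => meas_Wm ha i j) hw)).const_mul _
  have h2 : Measurable fun q => (1 - (√2)⁻¹) * (w q ⬝ᵥ (√n • (Wm n (a q) *ᵥ w q))) :=
    (meas_dot hw h1).const_mul _
  exact h1.sub (measurable_pi_lambda _ fun i => h2.mul ((measurable_pi_apply i).comp hw))

/-! ### The iterates -/

variable (f : (t : ℕ) → X → (Fin t → ℝ) → ℝ)
variable [MeasurableSpace X] (hf : ∀ t, Measurable (Function.uncurry (f t)))

theorem meas_lab : Measurable (lab : (Fin n → X × (ℕ → ℝ)) → Fin n → X) :=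
  measurable_pi_lambda _ fun i => measurable_fst.comp (measurable_pi_apply i)

theorem meas_upd (k : ℕ) :
    Measurable fun q : (Fin n → X × (ℕ → ℝ)) × (Fin n → ℝ) => upd k q.1 q.2 := by
  refine measurable_pi_lambda _ fun i => ?_
  refine Measurable.prodMk ?_ ?_
  · exact measurable_fst.comp ((measurable_pi_apply i).comp measurable_fst)
  · have h1 : Measurable fun q : (Fin n → X × (ℕ → ℝ)) × (Fin n → ℝ) => ((q.1 i).2, q.2 i) :=
      (measurable_snd.comp ((measurable_pi_apply i).comp measurable_fst)).prodMk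
        ((measurable_pi_apply i).comp measurable_snd)
    exact (measurable_update' (X := fun _ : ℕ => ℝ) (a := k)).comp h1

include hf

theorem meas_mv (t : ℕ) :
    Measurable (fun q : (Fin n → X) × (Ix n → ℝ) => mv f (Wm n q.2) q.1 t) := by
  induction t using Nat.strong_induction_on with
  | _ t ih =>
    refine measurable_pi_lambda _ fun i => ?_
    have h1 : Measurable fun q : (Fin n → X) × (Ix n → ℝ) =>
        (q.1 i, fun s : Fin t => (Wm n q.2 *ᵥ mv f (Wm n q.2) q.1 s) i) := by
      refine Measurable.prodMk ((measurable_pi_apply i).comp measurable_fst) ?_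
      refine measurable_pi_lambda _ fun s => ?_
      exact (measurable_pi_apply i).comp
        (meas_mulVec (fun i j => meas_Wm measurable_snd i j) (ih s s.2))
    have h2 := (hf t).comp h1
    have h3 : (fun q : (Fin n → X) × (Ix n → ℝ) => mv f (Wm n q.2) q.1 t i) =
        Function.uncurry (f t) ∘ fun q : (Fin n → X) × (Ix n → ℝ) =>
          (q.1 i, fun s : Fin t => (Wm n q.2 *ᵥ mv f (Wm n q.2) q.1 s) i) := by
      funext q
      rw [mv]
      rfl
    rw [h3]
    exact h2

theorem meas_Pm (t : ℕ) (i j : Fin n) :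
    Measurable (fun q : (Fin n → X) × (Ix n → ℝ) => Pm f (Wm n q.2) q.1 t i j) := by
  induction t generalizing i j with
  | zero =>
    simp only [Pm]
    exact measurable_const
  | succ t ih =>
    have h1 : Measurable fun q : (Fin n → X) × (Ix n → ℝ) =>
        Pm f (Wm n q.2) q.1 t *ᵥ mv f (Wm n q.2) q.1 t := meas_mulVec ih (meas_mv f hf t)
    simp only [Pm_succ, Matrix.sub_apply, Matrix.smul_apply, Matrix.vecMulVec_apply, smul_eq_mul]
    exact (ih i j).sub ((meas_dot h1 h1).inv.mul
      (((measurable_pi_apply i).comp h1).mul ((measurable_pi_apply j).comp h1)))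

theorem meas_Rs (k : ℕ) : Measurable (Rs (n := n) f k) := by
  unfold Rs
  have h1 : ∀ i j, Measurable fun q : ((Fin n → X) × (Ix n → ℝ)) × (Ix n → ℝ) =>
      Pm f (Wm n q.1.2) q.1.1 k i j := fun i j => (meas_Pm f hf k i j).comp measurable_fst
  have h2 : Measurable fun q : ((Fin n → X) × (Ix n → ℝ)) × (Ix n → ℝ) => q.1.2 :=
    measurable_snd.comp measurable_fst
  exact (measurable_fst.comp measurable_fst).prodMk
    ((h2.sub (meas_sw h1 h2)).add (meas_sw h1 measurable_snd))

theorem meas_Ph (k : ℕ) : Measurable (Ph (n := n) f k) := by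
  have h0 : Measurable fun q : ((Fin n → X × (ℕ → ℝ)) × (Ix n → ℝ)) × (Ix n → ℝ) =>
      (lab q.1.1, q.1.2) :=
    (meas_lab.comp (measurable_fst.comp measurable_fst)).prodMk
      (measurable_snd.comp measurable_fst)
  have h1 : ∀ i j, Measurable fun q : ((Fin n → X × (ℕ → ℝ)) × (Ix n → ℝ)) × (Ix n → ℝ) =>
      Pm f (Wm n q.1.2) (lab q.1.1) k i j := fun i j => (meas_Pm f hf k i j).comp h0
  have h2 : Measurable fun q : ((Fin n → X × (ℕ → ℝ)) × (Ix n → ℝ)) × (Ix n → ℝ) =>
      mv f (Wm n q.1.2) (lab q.1.1) k := (meas_mv f hf k).comp h0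
  have h3 : Measurable fun q : ((Fin n → X × (ℕ → ℝ)) × (Ix n → ℝ)) × (Ix n → ℝ) =>
      Gv (nz (Pm f (Wm n q.1.2) (lab q.1.1) k *ᵥ mv f (Wm n q.1.2) (lab q.1.1) k)) q.2 :=
    meas_Gv (meas_nz.comp (meas_mulVec h1 h2)) measurable_snd
  refine Measurable.prodMk ?_ ?_
  · exact (meas_upd k).comp ((measurable_fst.comp measurable_fst).prodMk h3)
  · exact measurable_snd.comp ((meas_Rs f hf k).comp (h0.prodMk measurable_snd))

end Vale.Agent.P367.SE
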