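import Vale.Agent.P367.SE.Defs

/-!
# P367 SE: calculus of convergence in probability
-/

open MeasureTheory ProbabilityTheory Matrix Filter Topology ENNReal

set_option linter.deprecated false

namespace Vale.Agent.P367.SE

section abstract

variable {Ω : ℕ → Type} [∀ n, MeasurableSpace (Ω n)] (μ : ∀ n, Measure (Ω n))

/-- convergence to `0` in probability -/
def Sm (Y : ∀ n, Ω n → ℝ) : Prop :=
  ∀ ε : ℝ, 0 < ε → Tendsto (fun n => μ n {ω | ε ≤ |Y n ω|}) atTop (𝓝 0)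

/-- bounded in probability -/
def Tb (Y : ∀ n, Ω n → ℝ) : Prop :=
  ∀ δ : ℝ≥0∞, 0 < δ → ∃ K : ℝ, ∀ᶠ n in atTop, μ n {ω | K ≤ |Y n ω|} ≤ δ

variable {μ} {Y Z : ∀ n, Ω n → ℝ} {A B C D : ∀ n, Ω n → Fin n → ℝ}

lemma Sm.mono (h : Sm μ Y) (hZ : ∀ n ω, |Z n ω| ≤ |Y n ω|) : Sm μ Z := fun ε hε =>
  tendsto_of_tendsto_of_tendsto_of_le_of_le tendsto_const_nhds (h ε hε) (fun _ => zero_le)
    (fun n => measure_mono fun ω hω => le_trans hω (hZ n ω))

/-- domination on events of probability tending to one, for large `n` -/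
lemma Sm.mono_on (h : Sm μ Y) (S : ∀ n, Set (Ω n))
    (hS : Tendsto (fun n => μ n (S n)ᶜ) atTop (𝓝 0))
    (hZ : ∀ n, 0 < n → ∀ ω ∈ S n, |Z n ω| ≤ |Y n ω|) : Sm μ Z := fun ε hε => by
  have h1 : Tendsto (fun n => μ n {ω | ε ≤ |Y n ω|} + μ n (S n)ᶜ) atTop (𝓝 0) := by
    simpa using (h ε hε).add hS
  refine tendsto_of_tendsto_of_tendsto_of_le_of_le' tendsto_const_nhds h1
    (Eventually.of_forall fun _ => zero_le) ?_
  filter_upwards [eventually_gt_atTop 0] with n hn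
  refine (measure_mono ?_).trans (measure_union_le _ _)
  intro ω hω
  by_cases hs : ω ∈ S n
  · exact Or.inl (le_trans hω (hZ n hn ω hs))
  · exact Or.inr hs

lemma Sm.mono' (h : Sm μ Y) (hZ : ∀ n, 0 < n → ∀ ω, |Z n ω| ≤ |Y n ω|) : Sm μ Z :=
  h.mono_on (fun _ => Set.univ) (by simp) (fun n hn ω _ => hZ n hn ω)

lemma Sm.congr (h : Sm μ Y) (hZ : ∀ n, 0 < n → ∀ ω, Z n ω = Y n ω) : Sm μ Z :=
  h.mono' fun n hn ω => by rw [hZ n hn ω]

lemma Sm.add (h : Sm μ Y) (h' : Sm μ Z) : Sm μ (fun n ω => Y n ω + Z n ω) := fun ε hε => by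
  have h1 : Tendsto (fun n => μ n {ω | ε / 2 ≤ |Y n ω|} + μ n {ω | ε / 2 ≤ |Z n ω|}) atTop
      (𝓝 0) := by
    simpa using (h (ε / 2) (by positivity)).add (h' (ε / 2) (by positivity))
  refine tendsto_of_tendsto_of_tendsto_of_le_of_le tendsto_const_nhds h1
    (fun _ => zero_le) fun n => ?_
  refine (measure_mono ?_).trans (measure_union_le _ _)
  intro ω hω
  simp only [Set.mem_setOf_eq, Set.mem_union] at hω ⊢
  by_contra hc
  push Not at hc
  have := abs_add_le (Y n ω) (Z n ω)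
  linarith [hc.1, hc.2]

lemma Sm.zero : Sm μ (fun _ _ => 0) := fun ε hε => by
  have : ∀ n, {ω : Ω n | ε ≤ |(0 : ℝ)|} = ∅ := fun n => by
    ext ω; simp [hε]
  simp only [this, measure_empty]
  exact tendsto_const_nhds

lemma Sm.sum {ι : Type*} (s : Finset ι) {F : ι → ∀ n, Ω n → ℝ} (h : ∀ i ∈ s, Sm μ (F i)) :
    Sm μ (fun n ω => ∑ i ∈ s, F i n ω) := by
  classical
  induction s using Finset.induction_on with
  | empty => simpa using Sm.zero
  | insert a s ha ih =>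
    simp only [Finset.sum_insert ha]
    exact (h a (Finset.mem_insert_self a s)).add (ih fun i hi => h i (Finset.mem_insert_of_mem hi))

lemma Sm.const_mul (h : Sm μ Y) (c : ℝ) : Sm μ (fun n ω => c * Y n ω) := fun ε hε => by
  by_cases hc : c = 0
  · subst hc
    have := Sm.zero (μ := μ) ε hε
    simpa using this
  · refine (h (ε / |c|) (by positivity)).congr fun n => ?_
    congr 1
    ext ω
    simp only [Set.mem_setOf_eq, abs_mul]
    rw [div_le_iff₀ (by positivity), mul_comm]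

lemma Sm.neg (h : Sm μ Y) : Sm μ (fun n ω => - Y n ω) :=
  h.mono fun n ω => by rw [abs_neg]

lemma Sm.sub (h : Sm μ Y) (h' : Sm μ Z) : Sm μ (fun n ω => Y n ω - Z n ω) :=
  (h.add h'.neg).mono fun n ω => by rw [sub_eq_add_neg]

lemma Sm.mul_tb (h : Sm μ Y) (h' : Tb μ Z) : Sm μ (fun n ω => Y n ω * Z n ω) := fun ε hε => by
  rw [ENNReal.tendsto_nhds_zero]
  intro δ hδ
  obtain ⟨K, hK⟩ := h' (δ / 2) (ENNReal.half_pos hδ.ne')
  have h1 := (ENNReal.tendsto_nhds_zero.1 (h (ε / (|K| + 1)) (by positivity))) (δ / 2)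
    (ENNReal.half_pos hδ.ne')
  filter_upwards [hK, h1] with n hn1 hn2
  calc μ n {ω | ε ≤ |Y n ω * Z n ω|} ≤
      μ n ({ω | ε / (|K| + 1) ≤ |Y n ω|} ∪ {ω | K ≤ |Z n ω|}) := by
        refine measure_mono fun ω hω => ?_
        simp only [Set.mem_setOf_eq, Set.mem_union, abs_mul] at hω ⊢
        by_contra hc
        push Not at hc
        have h2 : |Z n ω| ≤ |K| + 1 := by linarith [le_abs_self K]
        have h3 : |Y n ω| * |Z n ω| ≤ |Y n ω| * (|K| + 1) :=
          mul_le_mul_of_nonneg_left h2 (abs_nonneg _)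
        have h4 := hc.1
        rw [lt_div_iff₀ (by positivity)] at h4
        linarith
    _ ≤ δ / 2 + δ / 2 := (measure_union_le _ _).trans (add_le_add hn2 hn1)
    _ = δ := ENNReal.add_halves δ

lemma Tb.mono (h : Tb μ Y) (hZ : ∀ n ω, |Z n ω| ≤ |Y n ω|) : Tb μ Z := fun δ hδ => by
  obtain ⟨K, hK⟩ := h δ hδ
  exact ⟨K, hK.mono fun n hn => (measure_mono fun ω hω => le_trans hω (hZ n ω)).trans hn⟩

lemma Tb.of_bound (K : ℝ) (hZ : ∀ n ω, |Z n ω| ≤ K) : Tb μ Z := fun δ _ =>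
  ⟨K + 1, Eventually.of_forall fun n => by
    have : {ω | K + 1 ≤ |Z n ω|} = ∅ := by
      ext ω
      simp only [Set.mem_setOf_eq, Set.mem_empty_iff_false, iff_false]
      have := hZ n ω
      linarith
    rw [this, measure_empty]
    exact zero_le⟩

lemma Tb.of_sm (c : ℝ) (h : Sm μ (fun n ω => Y n ω - c)) : Tb μ Y := fun δ hδ => by
  refine ⟨|c| + 1, ?_⟩
  have h1 := (ENNReal.tendsto_nhds_zero.1 (h 1 one_pos)) δ hδ
  filter_upwards [h1] with n hn
  refine (measure_mono fun ω hω => ?_).trans hn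
  simp only [Set.mem_setOf_eq] at hω ⊢
  have := abs_sub_abs_le_abs_sub (Y n ω) c
  linarith

lemma Tb.add (h : Tb μ Y) (h' : Tb μ Z) : Tb μ (fun n ω => Y n ω + Z n ω) := fun δ hδ => by
  obtain ⟨K, hK⟩ := h (δ / 2) (ENNReal.half_pos hδ.ne')
  obtain ⟨K', hK'⟩ := h' (δ / 2) (ENNReal.half_pos hδ.ne')
  refine ⟨K + K', ?_⟩
  filter_upwards [hK, hK'] with n h1 h2
  calc μ n {ω | K + K' ≤ |Y n ω + Z n ω|} ≤ μ n ({ω | K ≤ |Y n ω|} ∪ {ω | K' ≤ |Z n ω|}) := by
        refine measure_mono fun ω hω => ?_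
        simp only [Set.mem_setOf_eq, Set.mem_union] at hω ⊢
        by_contra hc
        push Not at hc
        have := abs_add_le (Y n ω) (Z n ω)
        linarith [hc.1, hc.2]
    _ ≤ δ / 2 + δ / 2 := (measure_union_le _ _).trans (add_le_add h1 h2)
    _ = δ := ENNReal.add_halves δ

lemma Tb.mul (h : Tb μ Y) (h' : Tb μ Z) : Tb μ (fun n ω => Y n ω * Z n ω) := fun δ hδ => by
  obtain ⟨K, hK⟩ := h (δ / 2) (ENNReal.half_pos hδ.ne')
  obtain ⟨K', hK'⟩ := h' (δ / 2) (ENNReal.half_pos hδ.ne')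
  refine ⟨|K| * |K'| + 1, ?_⟩
  filter_upwards [hK, hK'] with n h1 h2
  calc μ n {ω | |K| * |K'| + 1 ≤ |Y n ω * Z n ω|} ≤
      μ n ({ω | K ≤ |Y n ω|} ∪ {ω | K' ≤ |Z n ω|}) := by
        refine measure_mono fun ω hω => ?_
        simp only [Set.mem_setOf_eq, Set.mem_union, abs_mul] at hω ⊢
        by_contra hc
        push Not at hc
        have h3 : |Y n ω| * |Z n ω| ≤ |K| * |K'| :=
          mul_le_mul (by linarith [hc.1, le_abs_self K]) (by linarith [hc.2, le_abs_self K'])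
            (abs_nonneg _) (abs_nonneg _)
        linarith
    _ ≤ δ / 2 + δ / 2 := (measure_union_le _ _).trans (add_le_add h1 h2)
    _ = δ := ENNReal.add_halves δ

lemma Sm.mul_sub {c d : ℝ} (h : Sm μ (fun n ω => Y n ω - c)) (h' : Sm μ (fun n ω => Z n ω - d)) :
    Sm μ (fun n ω => Y n ω * Z n ω - c * d) := by
  have h1 := (h.mul_tb (Tb.of_sm d h')).add (h'.const_mul c)
  exact h1.mono fun n ω => le_of_eq (by congr 1; ring)

/-- continuous mapping -/
lemma Sm.comp {c : ℝ} (h : Sm μ (fun n ω => Y n ω - c)) {g : ℝ → ℝ} (hg : ContinuousAt g c) :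
    Sm μ (fun n ω => g (Y n ω) - g c) := fun ε hε => by
  obtain ⟨δ, hδ, hd⟩ := Metric.continuousAt_iff.1 hg ε hε
  refine tendsto_of_tendsto_of_tendsto_of_le_of_le tendsto_const_nhds (h δ hδ)
    (fun _ => zero_le) fun n => measure_mono fun ω hω => ?_
  simp only [Set.mem_setOf_eq] at hω ⊢
  by_contra hc
  push Not at hc
  have := hd (x := Y n ω) (by rw [Real.dist_eq]; exact hc)
  rw [Real.dist_eq] at this
  linarith

lemma Sm.sq_iff : Sm μ (fun n ω => Y n ω ^ 2) → Sm μ Y := fun h ε hε => by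
  refine (h (ε ^ 2) (by positivity)).congr fun n => ?_
  congr 1
  ext ω
  simp only [Set.mem_setOf_eq, abs_pow]
  exact pow_le_pow_iff_left₀ hε.le (abs_nonneg _) two_ne_zero

lemma Sm.of_integral [∀ n, IsFiniteMeasure (μ n)] (h0 : ∀ n, 0 < n → ∀ ω, 0 ≤ Y n ω)
    (hi : ∀ n, 0 < n → Integrable (Y n) (μ n)) {a : ℕ → ℝ} (ha : Tendsto a atTop (𝓝 0))
    (h : ∀ n, 0 < n → ∫ ω, Y n ω ∂(μ n) ≤ a n) : Sm μ Y := fun ε hε => by
  have h1 : Tendsto (fun n => ENNReal.ofReal (a n / ε)) atTop (𝓝 0) := by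
    have := ENNReal.tendsto_ofReal (ha.div_const ε)
    simpa using this
  refine tendsto_of_tendsto_of_tendsto_of_le_of_le' tendsto_const_nhds h1
    (Eventually.of_forall fun _ => zero_le) ?_
  filter_upwards [eventually_gt_atTop 0] with n hn
  have h2 := mul_meas_ge_le_integral_of_nonneg (μ := μ n) (f := Y n)
    (Eventually.of_forall (h0 n hn)) (hi n hn) ε
  have h3 : (μ n).real {ω | ε ≤ |Y n ω|} ≤ a n / ε := by
    rw [le_div_iff₀ hε, mul_comm]
    have : {ω | ε ≤ |Y n ω|} = {ω | ε ≤ Y n ω} := by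
      ext ω; simp only [Set.mem_setOf_eq, abs_of_nonneg (h0 n hn ω)]
    rw [this]
    exact h2.trans (h n hn)
  rw [← ENNReal.ofReal_toReal (measure_ne_top (μ n) {ω | ε ≤ |Y n ω|})]
  exact ENNReal.ofReal_le_ofReal h3

lemma Tb.of_integral [∀ n, IsFiniteMeasure (μ n)] (h0 : ∀ n, 0 < n → ∀ ω, 0 ≤ Y n ω)
    (hi : ∀ n, 0 < n → Integrable (Y n) (μ n)) (C : ℝ)
    (h : ∀ n, 0 < n → ∫ ω, Y n ω ∂(μ n) ≤ C) : Tb μ Y := fun δ hδ => by
  have hC : 0 ≤ |C| := abs_nonneg C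
  obtain ⟨r, hr0, hr⟩ : ∃ r : ℝ, 0 < r ∧ ENNReal.ofReal r ≤ δ := by
    by_cases hd : δ = ⊤
    · exact ⟨1, one_pos, hd ▸ le_top⟩
    · exact ⟨δ.toReal, ENNReal.toReal_pos hδ.ne' hd, ENNReal.ofReal_toReal_le⟩
  refine ⟨(|C| + 1) / r, ?_⟩
  filter_upwards [eventually_gt_atTop 0] with n hn
  have h2 := mul_meas_ge_le_integral_of_nonneg (μ := μ n) (f := Y n)
    (Eventually.of_forall (h0 n hn)) (hi n hn) ((|C| + 1) / r)
  have h3 : (μ n).real {ω | (|C| + 1) / r ≤ |Y n ω|} ≤ r := by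
    have : {ω | (|C| + 1) / r ≤ |Y n ω|} = {ω | (|C| + 1) / r ≤ Y n ω} := by
      ext ω; simp only [Set.mem_setOf_eq, abs_of_nonneg (h0 n hn ω)]
    rw [this]
    have h4 := h2.trans (h n hn)
    have h5 : (μ n).real {ω | (|C| + 1) / r ≤ Y n ω} ≤ C / ((|C| + 1) / r) := by
      rw [le_div_iff₀ (by positivity), mul_comm]
      exact h4
    refine h5.trans ?_
    rw [div_div_eq_mul_div, div_le_iff₀ (by positivity)]
    nlinarith [le_abs_self C]
  refine le_trans ?_ hr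
  rw [← ENNReal.ofReal_toReal (measure_ne_top (μ n) {ω | (|C| + 1) / r ≤ |Y n ω|})]
  exact ENNReal.ofReal_le_ofReal h3

/-! ### transfer -/

variable {Ω' : ℕ → Type} [∀ n, MeasurableSpace (Ω' n)]

/-- transfer along a product with another probability space -/
lemma Sm.prod (h : Sm μ Y) (ν : ∀ n, Measure (Ω' n)) [∀ n, IsProbabilityMeasure (ν n)]
    [∀ n, SFinite (μ n)] :
    Sm (fun n => (μ n).prod (ν n)) (fun n q => Y n q.1) := fun ε hε => by
  refine (h ε hε).congr fun n => ?_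
  have : {q : Ω n × Ω' n | ε ≤ |Y n q.1|} = {ω | ε ≤ |Y n ω|} ×ˢ Set.univ := by
    ext q; simp
  rw [this, Measure.prod_prod, measure_univ, mul_one]

lemma Tb.prod (h : Tb μ Y) (ν : ∀ n, Measure (Ω' n)) [∀ n, IsProbabilityMeasure (ν n)]
    [∀ n, SFinite (μ n)] :
    Tb (fun n => (μ n).prod (ν n)) (fun n q => Y n q.1) := fun δ hδ => by
  obtain ⟨K, hK⟩ := h δ hδ
  refine ⟨K, hK.mono fun n hn => ?_⟩
  have : {q : Ω n × Ω' n | K ≤ |Y n q.1|} = {ω | K ≤ |Y n ω|} ×ˢ Set.univ := by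
    ext q; simp
  rw [this, Measure.prod_prod, measure_univ, mul_one]
  exact hn

/-- transfer to an image measure -/
lemma Sm.map {F : ∀ n, Ω n → Ω' n} {Y' : ∀ n, Ω' n → ℝ} (hF : ∀ n, Measurable (F n))
    (hY : ∀ n, Measurable (Y' n)) (h : Sm μ (fun n ω => Y' n (F n ω))) :
    Sm (fun n => (μ n).map (F n)) Y' := fun ε hε => by
  refine (h ε hε).congr fun n => ?_
  rw [Measure.map_apply (hF n) (measurableSet_le measurable_const (hY n).abs)]
  rfl

/-- transfer from an image measure -/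
lemma Sm.of_map {F : ∀ n, Ω n → Ω' n} {Y' : ∀ n, Ω' n → ℝ} (hF : ∀ n, Measurable (F n))
    (h : Sm (fun n => (μ n).map (F n)) Y') : Sm μ (fun n ω => Y' n (F n ω)) := fun ε hε => by
  refine tendsto_of_tendsto_of_tendsto_of_le_of_le tendsto_const_nhds (h ε hε)
    (fun _ => zero_le) fun n => ?_
  exact Measure.le_map_apply (hF n).aemeasurable _

lemma Tb.of_map {F : ∀ n, Ω n → Ω' n} {Y' : ∀ n, Ω' n → ℝ} (hF : ∀ n, Measurable (F n))
    (h : Tb (fun n => (μ n).map (F n)) Y') : Tb μ (fun n ω => Y' n (F n ω)) := fun δ hδ => by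
  obtain ⟨K, hK⟩ := h δ hδ
  exact ⟨K, hK.mono fun n hn => (Measure.le_map_apply (hF n).aemeasurable _).trans hn⟩

end abstract

/-! ### normalised norms and inner products -/

/-- normalised inner product -/
noncomputable def ip {n : ℕ} (v w : Fin n → ℝ) : ℝ := (n : ℝ)⁻¹ * ∑ i, v i * w i

section alg

variable {n : ℕ} (v w x : Fin n → ℝ)

lemma nq_nonneg : 0 ≤ nq v := mul_nonneg (by positivity) (Finset.sum_nonneg fun _ _ => sq_nonneg _)

lemma ip_self : ip v v = nq v := by simp only [ip, nq, sq]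

lemma ip_comm : ip v w = ip w v := by simp only [ip, mul_comm]

lemma ip_add : ip v (w + x) = ip v w + ip v x := by
  simp only [ip, Pi.add_apply, mul_add, Finset.sum_add_distrib]

lemma ip_sub : ip v (w - x) = ip v w - ip v x := by
  simp only [ip, Pi.sub_apply, mul_sub, Finset.sum_sub_distrib]

lemma ip_smul (c : ℝ) : ip v (c • w) = c * ip v w := by
  simp only [ip, Pi.smul_apply, smul_eq_mul, Finset.mul_sum]
  exact Finset.sum_congr rfl fun i _ => by ring

lemma ip_zero : ip v 0 = 0 := by simp [ip]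

lemma ip_sum {ι : Type*} (s : Finset ι) (F : ι → Fin n → ℝ) :
    ip v (∑ i ∈ s, F i) = ∑ i ∈ s, ip v (F i) := by
  classical
  induction s using Finset.induction_on with
  | empty => simp [ip_zero]
  | insert a s ha ih => rw [Finset.sum_insert ha, Finset.sum_insert ha, ip_add, ih]

lemma nq_smul (c : ℝ) : nq (c • v) = c ^ 2 * nq v := by
  simp only [nq, Pi.smul_apply, smul_eq_mul, Finset.mul_sum]
  exact Finset.sum_congr rfl fun i _ => by ring

lemma nq_add : nq (v + w) = nq v + nq w + 2 * ip v w := by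
  simp only [nq, ip, Pi.add_apply, Finset.mul_sum, ← Finset.sum_add_distrib]
  exact Finset.sum_congr rfl fun i _ => by ring

lemma nq_neg : nq (-v) = nq v := by simp [nq]

lemma two_ip_le : 2 * ip v w ≤ nq v + nq w := by
  have h : nq (v - w) = nq v + nq w - 2 * ip v w := by
    simp only [nq, ip, Pi.sub_apply, Finset.mul_sum, ← Finset.sum_add_distrib,
      ← Finset.sum_sub_distrib]
    exact Finset.sum_congr rfl fun i _ => by ring
  linarith [nq_nonneg (v - w)]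

lemma nq_add_le : nq (v + w) ≤ 2 * nq v + 2 * nq w := by
  rw [nq_add]; linarith [two_ip_le v w]

lemma nq_sub_le : nq (v - w) ≤ 2 * nq v + 2 * nq w := by
  rw [sub_eq_add_neg]
  refine (nq_add_le _ _).trans ?_
  rw [nq_neg]

lemma ip_sq_le : ip v w ^ 2 ≤ nq v * nq w := by
  simp only [ip, nq]
  have h := Finset.sum_mul_sq_le_sq_mul_sq Finset.univ v w
  calc ((n : ℝ)⁻¹ * ∑ i, v i * w i) ^ 2 = ((n : ℝ)⁻¹) ^ 2 * (∑ i, v i * w i) ^ 2 := by ring
    _ ≤ ((n : ℝ)⁻¹) ^ 2 * ((∑ i, v i ^ 2) * ∑ i, w i ^ 2) :=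
        mul_le_mul_of_nonneg_left h (by positivity)
    _ = _ := by ring

end alg

section vec

variable {Ω : ℕ → Type} [∀ n, MeasurableSpace (Ω n)] (μ : ∀ n, Measure (Ω n))

/-- closeness of vectors in normalised norm, in probability -/
def Ap (A B : ∀ n, Ω n → Fin n → ℝ) : Prop := Sm μ (fun n ω => nq (A n ω - B n ω))

/-- vectors of bounded normalised norm, in probability -/
def Bd (A : ∀ n, Ω n → Fin n → ℝ) : Prop := Tb μ (fun n ω => nq (A n ω))

variable {μ} {A B C D : ∀ n, Ω n → Fin n → ℝ} {c : ∀ n, Ω n → ℝ} {Y Z : ∀ n, Ω n → ℝ}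

lemma Ap.add (h : Ap μ A B) (h' : Ap μ C D) :
    Ap μ (fun n ω => A n ω + C n ω) (fun n ω => B n ω + D n ω) := by
  refine ((h.const_mul 2).add (h'.const_mul 2)).mono fun n ω => ?_
  have h1 := nq_nonneg (A n ω - B n ω)
  have h2 := nq_nonneg (C n ω - D n ω)
  rw [abs_of_nonneg (nq_nonneg _), abs_of_nonneg (by positivity)]
  have : A n ω + C n ω - (B n ω + D n ω) = (A n ω - B n ω) + (C n ω - D n ω) := by abel
  rw [this]
  exact nq_add_le _ _

lemma Ap.neg (h : Ap μ A B) : Ap μ (fun n ω => - A n ω) (fun n ω => - B n ω) := by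
  refine Sm.mono h fun n ω => le_of_eq ?_
  have : - A n ω - - B n ω = - (A n ω - B n ω) := by abel
  rw [this, nq_neg]

lemma Ap.sub (h : Ap μ A B) (h' : Ap μ C D) :
    Ap μ (fun n ω => A n ω - C n ω) (fun n ω => B n ω - D n ω) := by
  have := h.add h'.neg
  simpa only [← sub_eq_add_neg] using this

lemma Ap.refl : Ap μ A A := by
  refine Sm.mono Sm.zero fun n ω => le_of_eq ?_
  simp [nq]

lemma Ap.trans (h : Ap μ A B) (h' : Ap μ B C) : Ap μ A C := by
  have := h.add h'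
  refine Sm.mono this fun n ω => le_of_eq ?_
  have e : A n ω + B n ω - (B n ω + C n ω) = A n ω - C n ω := by abel
  rw [e]

lemma Ap.sum {ι : Type*} (s : Finset ι) {F G : ι → ∀ n, Ω n → Fin n → ℝ}
    (h : ∀ i ∈ s, Ap μ (F i) (G i)) :
    Ap μ (fun n ω => ∑ i ∈ s, F i n ω) (fun n ω => ∑ i ∈ s, G i n ω) := by
  classical
  induction s using Finset.induction_on with
  | empty => simpa using Ap.refl
  | insert a s ha ih =>
    simp only [Finset.sum_insert ha]
    exact (h a (Finset.mem_insert_self a s)).add (ih fun i hi => h i (Finset.mem_insert_of_mem hi))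

lemma Ap.smul {c₀ : ℝ} (hc : Sm μ (fun n ω => c n ω - c₀)) (h : Ap μ A B) (hB : Bd μ B) :
    Ap μ (fun n ω => c n ω • A n ω) (fun n ω => c₀ • B n ω) := by
  have hct : Tb μ c := Tb.of_sm c₀ hc
  have h1 : Sm μ (fun n ω => 2 * (nq (A n ω - B n ω) * (c n ω * c n ω)) +
      2 * ((c n ω - c₀) * ((c n ω - c₀) * nq (B n ω)))) := by
    refine ((Sm.mul_tb h (hct.mul hct)).const_mul 2).add (Sm.const_mul ?_ 2)
    exact hc.mul_tb ((Tb.of_sm 0 (by simpa using hc)).mul hB)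
  refine Sm.mono h1 fun n ω => ?_
  have h2 := nq_nonneg (A n ω - B n ω)
  have h3 := nq_nonneg (B n ω)
  have h4 : 0 ≤ 2 * (nq (A n ω - B n ω) * (c n ω * c n ω)) :=
    mul_nonneg two_pos.le (mul_nonneg h2 (mul_self_nonneg _))
  have h5 : 0 ≤ 2 * ((c n ω - c₀) * ((c n ω - c₀) * nq (B n ω))) := by
    have : 2 * ((c n ω - c₀) * ((c n ω - c₀) * nq (B n ω))) =
      2 * ((c n ω - c₀) ^ 2 * nq (B n ω)) := by ring
    rw [this]; positivity
  rw [abs_of_nonneg (nq_nonneg _), abs_of_nonneg (by linarith)]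
  have : c n ω • A n ω - c₀ • B n ω = c n ω • (A n ω - B n ω) + (c n ω - c₀) • B n ω := by
    ext i; simp only [Pi.sub_apply, Pi.add_apply, Pi.smul_apply, smul_eq_mul]; ring
  rw [this]
  refine (nq_add_le _ _).trans (le_of_eq ?_)
  rw [nq_smul, nq_smul]
  ring

lemma Ap.const_smul (c₀ : ℝ) (h : Ap μ A B) :
    Ap μ (fun n ω => c₀ • A n ω) (fun n ω => c₀ • B n ω) := by
  refine Sm.mono (Sm.const_mul h (c₀ ^ 2)) fun n ω => le_of_eq ?_
  rw [← smul_sub, nq_smul]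

lemma Sm.ip (h : Sm μ (fun n ω => nq (A n ω))) (hB : Bd μ B) :
    Sm μ (fun n ω => ip (A n ω) (B n ω)) := by
  refine Sm.sq_iff (Sm.mono (Sm.mul_tb h hB) fun n ω => ?_)
  rw [abs_of_nonneg (sq_nonneg _), abs_of_nonneg (mul_nonneg (nq_nonneg _) (nq_nonneg _))]
  exact ip_sq_le _ _

lemma Bd.of_ap (h : Ap μ A B) (hB : Bd μ B) : Bd μ A := by
  have h1 : Tb μ (fun n ω => 2 * nq (A n ω - B n ω) + 2 * nq (B n ω)) := by
    refine Tb.add ?_ ?_
    · exact Tb.of_sm 0 (by simpa using Sm.const_mul h 2)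
    · exact (Tb.of_bound (Z := fun _ _ => 2) 2 (by simp)).mul hB
  refine h1.mono fun n ω => ?_
  have h2 := nq_nonneg (A n ω - B n ω)
  have h3 := nq_nonneg (B n ω)
  rw [abs_of_nonneg (nq_nonneg _), abs_of_nonneg (by positivity)]
  have : A n ω = (A n ω - B n ω) + B n ω := by abel
  conv_lhs => rw [this]
  exact nq_add_le _ _

/-- inner products converge together -/
lemma Ap.ip (h : Ap μ A B) (h' : Ap μ C D) (hB : Bd μ B) (hD : Bd μ D) :
    Sm μ (fun n ω => ip (A n ω) (C n ω) - ip (B n ω) (D n ω)) := by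
  have h1 : Sm μ (fun n ω => SE.ip (A n ω - B n ω) (C n ω)) := Sm.ip h (Bd.of_ap h' hD)
  have h2 : Sm μ (fun n ω => SE.ip (C n ω - D n ω) (B n ω)) := Sm.ip h' hB
  refine (h1.add h2).mono fun n ω => le_of_eq ?_
  congr 1
  rw [ip_comm (A n ω - B n ω), ip_sub, ip_comm (C n ω - D n ω), ip_sub, ip_comm (C n ω),
    ip_comm (C n ω)]
  ring

lemma Ap.nq (h : Ap μ A B) (hB : Bd μ B) :
    Sm μ (fun n ω => nq (A n ω) - nq (B n ω)) := by
  simpa only [← ip_self] using h.ip h hB hB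

end vec

end Vale.Agent.P367.SE
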