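import Mathlib

/-!
# P367, state evolution for general first order methods (block C2): definitions

`X` = space of labels, `ν` their law.  All indices are 0-based: `H s = W m^s`, `g s` = fresh
Gaussian vector of step `s`.  The rows `y i = (u_i, (g^s_i)_s)` have law `ρ ν`.
-/

open MeasureTheory ProbabilityTheory Matrix Filter Topology

namespace Vale.Agent.P367.SE

/-- indices of the disorder -/
abbrev Ix (n : ℕ) : Type := Fin n × Fin n

/-- iid standard Gaussians -/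
noncomputable def gau (ι : Type) [Fintype ι] : Measure (ι → ℝ) :=
  Measure.pi fun _ => gaussianReal 0 1

/-- `W = (G + Gᵀ) / √(2n)` (the same matrix as `Vale.Agent.P146.Sk.Wm`) -/
noncomputable def Wm (n : ℕ) (z : Ix n → ℝ) : Matrix (Fin n) (Fin n) ℝ :=
  Matrix.of fun i j => (z (i, j) + z (j, i)) / √(2 * (n : ℝ))

variable {X : Type} {n : ℕ}

/-- the iterates `m^t = f_t(u, W m^0, .., W m^(t-1))` of the first order method `f` -/
noncomputable def mv (f : (t : ℕ) → X → (Fin t → ℝ) → ℝ) (W : Matrix (Fin n) (Fin n) ℝ)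
    (u : Fin n → X) (t : ℕ) : Fin n → ℝ :=
  fun i => f t (u i) (fun s : Fin t => (W *ᵥ mv f W u s) i)
termination_by t
decreasing_by exact s.2

/-- the fields `H^t = W m^t` -/
noncomputable def Hv (f : (t : ℕ) → X → (Fin t → ℝ) → ℝ) (W : Matrix (Fin n) (Fin n) ℝ)
    (u : Fin n → X) (t : ℕ) : Fin n → ℝ := W *ᵥ mv f W u t

/-- `P_k` = projection on the orthogonal complement of `m^0, .., m^(k-1)` -/
noncomputable def Pm (f : (t : ℕ) → X → (Fin t → ℝ) → ℝ) (W : Matrix (Fin n) (Fin n) ℝ)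
    (u : Fin n → X) : ℕ → Matrix (Fin n) (Fin n) ℝ
  | 0 => 1
  | k + 1 => Pm f W u k - (Pm f W u k *ᵥ mv f W u k ⬝ᵥ Pm f W u k *ᵥ mv f W u k)⁻¹ •
      vecMulVec (Pm f W u k *ᵥ mv f W u k) (Pm f W u k *ᵥ mv f W u k)

/-- `a ↦ P a P` on disorder variables -/
def sw (P : Matrix (Fin n) (Fin n) ℝ) (a : Ix n → ℝ) : Ix n → ℝ :=
  fun e => (P * (Matrix.of fun i j => a (i, j)) * P) e.1 e.2

/-- resampling of the part of the disorder which has not been observed in the first `k` steps -/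
noncomputable def Rs (f : (t : ℕ) → X → (Fin t → ℝ) → ℝ) (k : ℕ)
    (q : ((Fin n → X) × (Ix n → ℝ)) × (Ix n → ℝ)) : (Fin n → X) × (Ix n → ℝ) :=
  (q.1.1, q.1.2 - sw (Pm f (Wm n q.1.2) q.1.1 k) q.1.2 + sw (Pm f (Wm n q.1.2) q.1.1 k) q.2)

/-- a unit vector: `v / |v|`, and the first basis vector if `v = 0` -/
noncomputable def nz (v : Fin n → ℝ) : Fin n → ℝ :=
  open Classical in if v = 0 then (fun i => if (i : ℕ) = 0 then 1 else 0)
    else (√(v ⬝ᵥ v))⁻¹ • v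

/-- for a unit vector `w`: `√n W(a) w` corrected in the direction `w` such that it is exactly a
standard Gaussian vector -/
noncomputable def Gv (w : Fin n → ℝ) (a : Ix n → ℝ) : Fin n → ℝ :=
  √n • (Wm n a *ᵥ w) - ((1 - (√2)⁻¹) * (w ⬝ᵥ (√n • (Wm n a *ᵥ w)))) • w

/-- replace the `k`-th Gaussian of every row -/
def upd (k : ℕ) (y : Fin n → X × (ℕ → ℝ)) (g : Fin n → ℝ) : Fin n → X × (ℕ → ℝ) :=
  fun i => ((y i).1, Function.update (y i).2 k (g i))

/-- the labels -/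
def lab (y : Fin n → X × (ℕ → ℝ)) : Fin n → X := fun i => (y i).1

/-- one step of the coupling; state = (rows, disorder) -/
noncomputable def Ph (f : (t : ℕ) → X → (Fin t → ℝ) → ℝ) (k : ℕ)
    (q : ((Fin n → X × (ℕ → ℝ)) × (Ix n → ℝ)) × (Ix n → ℝ)) :
    (Fin n → X × (ℕ → ℝ)) × (Ix n → ℝ) :=
  (upd k q.1.1 (Gv (nz (Pm f (Wm n q.1.2) (lab q.1.1) k *ᵥ mv f (Wm n q.1.2) (lab q.1.1) k)) q.2),
    (Rs f k ((lab q.1.1, q.1.2), q.2)).2)

variable [MeasurableSpace X]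

/-- law of one row -/
noncomputable def rho (ν : Measure X) : Measure (X × (ℕ → ℝ)) :=
  ν.prod (Measure.infinitePi fun _ : ℕ => gaussianReal 0 1)

/-- law of the rows -/
noncomputable def rhon (ν : Measure X) (n : ℕ) : Measure (Fin n → X × (ℕ → ℝ)) :=
  Measure.pi fun _ => rho ν

/-- law of labels and disorder -/
noncomputable def mun (ν : Measure X) (n : ℕ) : Measure ((Fin n → X) × (Ix n → ℝ)) :=
  (Measure.pi fun _ => ν).prod (gau (Ix n))

/-- law of the coupling after `k` steps -/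
noncomputable def Pk (ν : Measure X) (f : (t : ℕ) → X → (Fin t → ℝ) → ℝ) (n : ℕ) :
    ℕ → Measure ((Fin n → X × (ℕ → ℝ)) × (Ix n → ℝ))
  | 0 => (rhon ν n).prod (gau (Ix n))
  | k + 1 => ((Pk ν f n k).prod (gau (Ix n))).map (Ph f k)

/-- the limit objects: `M t = f_t(u, H^0..H^(t-1))`, orthonormalisation `E`, coefficients -/
structure LimData (ν : Measure X) (f : (t : ℕ) → X → (Fin t → ℝ) → ℝ) (T : ℕ) where
  E : ℕ → X × (ℕ → ℝ) → ℝ
  H : ℕ → X × (ℕ → ℝ) → ℝ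
  lam : ℕ → ℕ → ℝ
  bet : ℕ → ℕ → ℝ
  mE : ∀ t < T, Measurable (E t)
  bE : ∀ t < T, ∃ C : ℝ, ∀ ω, |E t ω| ≤ C
  dep : ∀ t < T, ∀ ω ω' : X × (ℕ → ℝ), ω.1 = ω'.1 → (∀ r < t, ω.2 r = ω'.2 r) → E t ω = E t ω'
  hM : ∀ t < T, ∀ ω, f t ω.1 (fun s : Fin t => H s ω) = ∑ s ∈ Finset.range (t + 1), lam t s * E s ω
  ortho : ∀ s < T, ∀ t < T, ∫ ω, E s ω * E t ω ∂(rho ν) = if s = t then 1 else 0
  pos : ∀ t < T, 0 < lam t t
  hbet : ∀ t < T, ∀ r < t, bet t r = ∫ ω, ω.2 r * E t ω ∂(rho ν)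
  hH : ∀ t < T, ∀ ω, H t ω = ∑ s ∈ Finset.range (t + 1), lam t s *
    (ω.2 s + ∑ r ∈ Finset.range s, bet s r * E r ω)

/-- normalised square norm -/
noncomputable def nq {n : ℕ} (v : Fin n → ℝ) : ℝ := (n : ℝ)⁻¹ * ∑ i, v i ^ 2

end Vale.Agent.P367.SE
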