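import Vale.Agent.P367.SE.Conv
import Vale.Agent.P367.SE.Cond

/-!
# P367 SE: deterministic part of one step
-/

open MeasureTheory ProbabilityTheory Matrix Filter Topology

namespace Vale.Agent.P367.SE

variable {X : Type} {n : ℕ}

section lin

variable (f : (t : ℕ) → X → (Fin t → ℝ) → ℝ) (W : Matrix (Fin n) (Fin n) ℝ) (u : Fin n → X)

/-- the new part of `m^k` -/
noncomputable def wv (k : ℕ) : Fin n → ℝ := Pm f W u k *ᵥ mv f W u k

/-- the normalised new part -/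
noncomputable def ev (k : ℕ) : Fin n → ℝ := (√(nq (wv f W u k)))⁻¹ • wv f W u k

lemma nq_eq_dot (v : Fin n → ℝ) : nq v = (n : ℝ)⁻¹ * (v ⬝ᵥ v) := by
  simp only [nq, dotProduct, sq]

lemma ip_eq_dot (v w : Fin n → ℝ) : ip v w = (n : ℝ)⁻¹ * (v ⬝ᵥ w) := rfl

lemma nq_eq_zero (hn : 0 < n) {v : Fin n → ℝ} (h : nq v = 0) : v = 0 := by
  have hn' : (0 : ℝ) < n := by exact_mod_cast hn
  rw [nq, mul_eq_zero] at h
  rcases h with h | h
  · exact absurd h (by positivity)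
  · rw [Finset.sum_eq_zero_iff_of_nonneg fun _ _ => sq_nonneg _] at h
    ext i
    simpa using h i (Finset.mem_univ i)

lemma nq_ev_le (k : ℕ) : nq (ev f W u k) ≤ 1 := by
  rw [ev, nq_smul, inv_pow, Real.sq_sqrt (nq_nonneg _)]
  by_cases h : nq (wv f W u k) = 0
  · rw [h]; simp
  · rw [inv_mul_cancel₀ h]

lemma wv_eq (hn : 0 < n) (k : ℕ) : wv f W u k = √(nq (wv f W u k)) • ev f W u k := by
  by_cases h : nq (wv f W u k) = 0
  · have h1 := nq_eq_zero hn h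
    rw [ev, h1]; simp
  · rw [ev, smul_smul, mul_inv_cancel₀, one_smul]
    rw [Real.sqrt_ne_zero']
    exact lt_of_le_of_ne (nq_nonneg _) (Ne.symm h)

/-- one step of the decomposition -/
lemma Pm_succ_mulVec (hn : 0 < n) (k : ℕ) (v : Fin n → ℝ) :
    Pm f W u (k + 1) *ᵥ v + ip v (ev f W u k) • ev f W u k = Pm f W u k *ᵥ v := by
  have hn' : (0 : ℝ) < n := by exact_mod_cast hn
  have h1 : Pm f W u (k + 1) = Pm f W u k - (wv f W u k ⬝ᵥ wv f W u k)⁻¹ •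
      vecMulVec (wv f W u k) (wv f W u k) := rfl
  have h2 : nq (wv f W u k) = (n : ℝ)⁻¹ * (wv f W u k ⬝ᵥ wv f W u k) := nq_eq_dot _
  have h3 : ip v (ev f W u k) • ev f W u k =
      ((wv f W u k ⬝ᵥ wv f W u k)⁻¹ * (v ⬝ᵥ wv f W u k)) • wv f W u k := by
    rw [ev, ip_smul, smul_smul, ip_eq_dot]
    congr 1
    have h4 : (√(nq (wv f W u k)))⁻¹ * (√(nq (wv f W u k)))⁻¹ = (nq (wv f W u k))⁻¹ := by
      rw [← mul_inv, Real.mul_self_sqrt (nq_nonneg _)]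
    calc (√(nq (wv f W u k)))⁻¹ * ((n : ℝ)⁻¹ * (v ⬝ᵥ wv f W u k)) * (√(nq (wv f W u k)))⁻¹
        = ((√(nq (wv f W u k)))⁻¹ * (√(nq (wv f W u k)))⁻¹) * (n : ℝ)⁻¹ * (v ⬝ᵥ wv f W u k) := by
          ring
      _ = _ := by rw [h4, h2, mul_inv, inv_inv]; field_simp
  rw [h3, h1, sub_mulVec, smul_mulVec, vecMulVec_mulVec]
  ext i
  simp only [Pi.add_apply, Pi.sub_apply, Pi.smul_apply, smul_eq_mul, MulOpposite.smul_eq_mul_unop,
    MulOpposite.unop_op]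
  rw [dotProduct_comm (wv f W u k) v]
  ring

/-- decomposition of any vector -/
lemma decomp (hn : 0 < n) (k : ℕ) (v : Fin n → ℝ) :
    v = Pm f W u k *ᵥ v + ∑ s ∈ Finset.range k, ip v (ev f W u s) • ev f W u s := by
  induction k with
  | zero => simp [Pm]
  | succ k ih =>
    rw [Finset.sum_range_succ, ← add_assoc, add_right_comm, Pm_succ_mulVec f W u hn k v]
    exact ih

lemma Pm_mul_le {k s : ℕ} (h : s ≤ k) : Pm f W u k * Pm f W u s = Pm f W u k := by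
  induction k, h using Nat.le_induction with
  | base => exact Pm_idem f W u s
  | succ k hk ih => rw [← Pm_mul f W u k, Matrix.mul_assoc, ih]

lemma Pm_ev_lt {k s : ℕ} (h : s < k) : Pm f W u k *ᵥ ev f W u s = 0 := by
  rw [ev, mulVec_smul, wv, mulVec_mulVec, Pm_mul_le f W u h.le, Pm_mv f W u h, smul_zero]

lemma Pm_ev_self (k : ℕ) : Pm f W u k *ᵥ ev f W u k = ev f W u k := by
  rw [ev, mulVec_smul, wv, mulVec_mulVec, Pm_idem]

lemma ip_symm {A : Matrix (Fin n) (Fin n) ℝ} (hA : Aᵀ = A) (v w : Fin n → ℝ) :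
    ip (A *ᵥ v) w = ip v (A *ᵥ w) := by
  rw [ip_eq_dot, ip_eq_dot, dotProduct_mulVec, ← mulVec_transpose, hA]

lemma ip_ev_ev {s k : ℕ} (h : s < k) : ip (ev f W u s) (ev f W u k) = 0 := by
  rw [← Pm_ev_self f W u k, ← ip_symm (Pm_symm f W u k), Pm_ev_lt f W u h, ip_comm, ip_zero]

lemma mv_decomp (hn : 0 < n) (k : ℕ) : mv f W u k =
    wv f W u k + ∑ s ∈ Finset.range k, ip (mv f W u k) (ev f W u s) • ev f W u s :=
  decomp f W u hn k (mv f W u k)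

end lin

lemma Wm_symm' (a : Ix n → ℝ) : (Wm n a)ᵀ = Wm n a := by
  ext i j; simp [Wm, add_comm]

lemma Wm_sub_add (a b c : Ix n → ℝ) : Wm n (a - b + c) = Wm n a - Wm n b + Wm n c := by
  ext i j
  simp only [Wm, Matrix.of_apply, Matrix.add_apply, Matrix.sub_apply, Pi.add_apply, Pi.sub_apply]
  ring

lemma Wm_sw' (P : Matrix (Fin n) (Fin n) ℝ) (hP : Pᵀ = P) (a : Ix n → ℝ) :
    Wm n (sw P a) = P * Wm n a * P := by
  set A : Matrix (Fin n) (Fin n) ℝ := Matrix.of fun i j => a (i, j) with hA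
  have h1 : Wm n a = (√(2 * (n : ℝ)))⁻¹ • (A + Aᵀ) := by
    ext i j
    simp only [Wm, Matrix.of_apply, hA, Matrix.smul_apply, Matrix.add_apply,
      Matrix.transpose_apply, smul_eq_mul]
    ring
  have h2 : Wm n (sw P a) = (√(2 * (n : ℝ)))⁻¹ • (P * A * P + (P * A * P)ᵀ) := by
    ext i j
    simp only [Wm, Matrix.of_apply, sw, Matrix.smul_apply, Matrix.add_apply,
      Matrix.transpose_apply, smul_eq_mul]
    ring
  rw [h2, h1, transpose_mul, transpose_mul, hP, Matrix.mul_smul, Matrix.smul_mul, Matrix.mul_add,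
    Matrix.add_mul, ← Matrix.mul_assoc]

section step

variable (f : (t : ℕ) → X → (Fin t → ℝ) → ℝ) (k : ℕ)
  (q : ((Fin n → X) × (Ix n → ℝ)) × (Ix n → ℝ))

lemma Wm_Rs' : Wm n (Rs f k q).2 = Wm n q.1.2 -
    Pm f (Wm n q.1.2) q.1.1 k * Wm n q.1.2 * Pm f (Wm n q.1.2) q.1.1 k +
    Pm f (Wm n q.1.2) q.1.1 k * Wm n q.2 * Pm f (Wm n q.1.2) q.1.1 k := by
  rw [Rs, Wm_sub_add, Wm_sw' _ (Pm_symm _ _ _ _), Wm_sw' _ (Pm_symm _ _ _ _)]

lemma Rs_mulVec {v : Fin n → ℝ} (hv : Pm f (Wm n q.1.2) q.1.1 k *ᵥ v = 0) :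
    Wm n (Rs f k q).2 *ᵥ v = Wm n q.1.2 *ᵥ v := by
  have h : ∀ A : Matrix (Fin n) (Fin n) ℝ, (Pm f (Wm n q.1.2) q.1.1 k * A *
      Pm f (Wm n q.1.2) q.1.1 k) *ᵥ v = 0 := fun A => by
    rw [← mulVec_mulVec, hv, mulVec_zero]
  rw [Wm_Rs', add_mulVec, sub_mulVec, h, h]
  simp

/-- the new matrix on the new direction -/
lemma Rs_ev (hn : 0 < n) : Wm n (Rs f k q).2 *ᵥ ev f (Wm n q.1.2) q.1.1 k =
    Wm n q.2 *ᵥ ev f (Wm n q.1.2) q.1.1 k -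
      ∑ r ∈ Finset.range k, ip (Wm n q.2 *ᵥ ev f (Wm n q.1.2) q.1.1 k)
        (ev f (Wm n q.1.2) q.1.1 r) • ev f (Wm n q.1.2) q.1.1 r +
      ∑ r ∈ Finset.range k, ip (Wm n q.1.2 *ᵥ ev f (Wm n q.1.2) q.1.1 r)
        (ev f (Wm n q.1.2) q.1.1 k) • ev f (Wm n q.1.2) q.1.1 r := by
  set W := Wm n q.1.2 with hW
  set u := q.1.1 with hu
  set W' := Wm n (Rs f k q).2 with hW'
  set Wa := Wm n q.2 with hWa
  set P := Pm f W u k with hP
  have hPP : P * P = P := Pm_idem f W u k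
  have h1 := decomp f W u hn k (W' *ᵥ ev f W u k)
  have h2 := decomp f W u hn k (Wa *ᵥ ev f W u k)
  have h3 : P *ᵥ (W' *ᵥ ev f W u k) = P *ᵥ (Wa *ᵥ ev f W u k) := by
    have h4 : ev f W u k = P *ᵥ ev f W u k := (Pm_ev_self f W u k).symm
    have h5 : P * W' * P = P * Wa * P := by
      rw [hW', Wm_Rs', ← hW, ← hu, ← hP, ← hWa]
      have e1 : P * (P * W * P) * P = P * W * P := by
        calc P * (P * W * P) * P = (P * P) * W * (P * P) := by simp only [Matrix.mul_assoc]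
          _ = _ := by rw [hPP]
      have e2 : P * (P * Wa * P) * P = P * Wa * P := by
        calc P * (P * Wa * P) * P = (P * P) * Wa * (P * P) := by simp only [Matrix.mul_assoc]
          _ = _ := by rw [hPP]
      rw [Matrix.mul_add, Matrix.mul_sub, Matrix.add_mul, Matrix.sub_mul, e1, e2]
      simp
    rw [h4, mulVec_mulVec, mulVec_mulVec, h5, ← mulVec_mulVec, ← mulVec_mulVec]
  have h6 : ∀ r ∈ Finset.range k, ip (W' *ᵥ ev f W u k) (ev f W u r) • ev f W u r =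
      ip (W *ᵥ ev f W u r) (ev f W u k) • ev f W u r := by
    intro r hr
    congr 1
    have h7 : W' *ᵥ ev f W u r = W *ᵥ ev f W u r :=
      Rs_mulVec f k q (Pm_ev_lt f W u (Finset.mem_range.1 hr))
    rw [ip_symm (Wm_symm' _), h7, ip_comm]
  rw [h1, Finset.sum_congr rfl h6, h3]
  congr 1
  exact eq_sub_of_add_eq h2.symm

/-- the new field -/
lemma Rs_Hv (hn : 0 < n) : Wm n (Rs f k q).2 *ᵥ mv f (Wm n q.1.2) q.1.1 k =
    ∑ s ∈ Finset.range k, ip (mv f (Wm n q.1.2) q.1.1 k) (ev f (Wm n q.1.2) q.1.1 s) •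
      (Wm n q.1.2 *ᵥ ev f (Wm n q.1.2) q.1.1 s) +
    √(nq (wv f (Wm n q.1.2) q.1.1 k)) •
      (Wm n (Rs f k q).2 *ᵥ ev f (Wm n q.1.2) q.1.1 k) := by
  conv_lhs => rw [mv_decomp f (Wm n q.1.2) q.1.1 hn k, wv_eq f (Wm n q.1.2) q.1.1 hn k]
  rw [mulVec_add, mulVec_smul, add_comm, mulVec_sum]
  congr 1
  refine Finset.sum_congr rfl fun s hs => ?_
  rw [mulVec_smul, Rs_mulVec f k q (Pm_ev_lt f _ _ (Finset.mem_range.1 hs))]

lemma Rs_hyp : ∀ s < k, Wm n (Rs f k q).2 *ᵥ mv f (Wm n q.1.2) q.1.1 s =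
    Wm n q.1.2 *ᵥ mv f (Wm n q.1.2) q.1.1 s := fun _ hs => Rs_mv f k q hs

lemma mv_Rs {s : ℕ} (hs : s ≤ k) :
    mv f (Wm n (Rs f k q).2) q.1.1 s = mv f (Wm n q.1.2) q.1.1 s :=
  mv_congr f _ _ (Rs_hyp f k q) s hs

lemma ev_Rs {s : ℕ} (hs : s ≤ k) :
    ev f (Wm n (Rs f k q).2) q.1.1 s = ev f (Wm n q.1.2) q.1.1 s := by
  rw [ev, ev, wv, wv, mv_Rs f k q hs, Pm_congr f _ _ (Rs_hyp f k q) s (by omega)]

lemma Hv_Rs {s : ℕ} (hs : s < k) :
    Hv f (Wm n (Rs f k q).2) q.1.1 s = Hv f (Wm n q.1.2) q.1.1 s := by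
  rw [Hv, Hv, mv_Rs f k q hs.le]
  exact Rs_mv f k q hs

end step

/-- the error between `W_a e` and the Gaussian vector -/
lemma Gv_error (hn : 0 < n) {w : Fin n → ℝ} (hw : w ≠ 0) (a : Ix n → ℝ) :
    nq (Wm n a *ᵥ ((√(nq w))⁻¹ • w) - Gv (nz w) a) =
      (1 - (√2)⁻¹) ^ 2 * (nz w ⬝ᵥ (Wm n a *ᵥ nz w)) ^ 2 := by
  have hn' : (0 : ℝ) < n := by exact_mod_cast hn
  have hww : 0 < w ⬝ᵥ w := by
    rcases (dotProduct_self_eq_zero (v := w)).not.2 hw |> fun h => lt_or_gt_of_ne h with h | h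
    · exact absurd h (not_lt.2 (Finset.sum_nonneg fun i _ => mul_self_nonneg _))
    · exact h
  have h1 : (√(nq w))⁻¹ • w = √n • nz w := by
    rw [nz, if_neg hw, smul_smul, nq_eq_dot, Real.sqrt_mul (by positivity), Real.sqrt_inv, mul_inv,
      inv_inv]
  have h2 : Wm n a *ᵥ ((√(nq w))⁻¹ • w) - Gv (nz w) a =
      ((1 - (√2)⁻¹) * (nz w ⬝ᵥ (√n • (Wm n a *ᵥ nz w)))) • nz w := by
    rw [h1, Gv, mulVec_smul]
    abel
  rw [h2, nq_smul, nq_eq_dot (nz w), nz_unit hn w, dotProduct_smul, smul_eq_mul]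
  have h3 : (√(n : ℝ)) ^ 2 = n := Real.sq_sqrt hn'.le
  calc ((1 - (√2)⁻¹) * (√n * (nz w ⬝ᵥ Wm n a *ᵥ nz w))) ^ 2 * ((n : ℝ)⁻¹ * 1)
      = (1 - (√2)⁻¹) ^ 2 * (nz w ⬝ᵥ Wm n a *ᵥ nz w) ^ 2 * ((√n) ^ 2 * (n : ℝ)⁻¹) := by ring
    _ = _ := by rw [h3, mul_inv_cancel₀ hn'.ne', mul_one]

end Vale.Agent.P367.SE
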