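import Vale.Agent.P367.SE.Step

/-!
# P367 SE: the induction
-/

open MeasureTheory ProbabilityTheory Matrix Filter Topology

namespace Vale.Agent.P367.SE

set_option linter.all false

variable {X : Type} [MeasurableSpace X] {ν : Measure X} [IsProbabilityMeasure ν]
  {f : (t : ℕ) → X → (Fin t → ℝ) → ℝ} {T : ℕ}

/-- convergence of everything up to step `k` -/
structure Cl (D : LimData ν f T) (k : ℕ) : Prop where
  H : ∀ s < k, Ap (Ω := St X) (fun n => Pk ν f n k) (Hq f s) (fun n q => lv (D.H s) q.1)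
  E : ∀ s < k, Ap (Ω := St X) (fun n => Pk ν f n k) (eq f s) (fun n q => lv (D.E s) q.1)
  Y : ∀ s < k, Ap (Ω := St X) (fun n => Pk ν f n k) (Yq f s) (fun n q => lv (D.Y s) q.1)

section

variable (hf : ∀ t, Measurable (Function.uncurry (f t)))
  (hL : ∀ t, ∃ L : ℝ, 0 ≤ L ∧ ∀ x h h', |f t x h - f t x h'| ≤ L * ∑ s, |h s - h' s|)
  (D : LimData ν f T) {k : ℕ}

include hf

lemma bd_sq (k : ℕ) {F : X × (ℕ → ℝ) → ℝ} (h : MemLp (fun ω => F ω * F ω) 2 (rho ν)) :
    Bd (Ω := St X) (fun n => Pk ν f n k) (fun n q => lv F q.1) := by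
  refine Tb.mono (Tb.of_sm _ (sm_lln hf k h)) fun n q => le_of_eq ?_
  congr 1
  simp only [nq, lv, sq]

lemma bd_E {s : ℕ} (hs : s < T) :
    Bd (Ω := St X) (fun n => Pk ν f n k) (fun n q => lv (D.E s) q.1) :=
  bd_sq hf k (D.memLp_mul_E hs (D.memLp_E hs 2))

lemma sq_Y {s : ℕ} (hs : s < T) : MemLp (fun ω => D.Y s ω * D.Y s ω) 2 (rho ν) := by
  have h := (D.memLp_Y hs 4 (by simp)).mul (p := 4) (q := 4) (r := 2) (D.memLp_Y hs 4 (by simp))
    (hpqr := ⟨by
      rw [← two_mul, show (4 : ENNReal) = 2 * 2 by norm_num,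
        ENNReal.mul_inv (by simp) (by simp), ← mul_assoc, ENNReal.mul_inv_cancel (by simp) (by simp),
        one_mul]⟩)
  exact h

lemma bd_Y {s : ℕ} (hs : s < T) :
    Bd (Ω := St X) (fun n => Pk ν f n k) (fun n q => lv (D.Y s) q.1) :=
  bd_sq hf k (sq_Y hf D hs)

lemma bd_M {s : ℕ} (hs : s < T) :
    Bd (Ω := St X) (fun n => Pk ν f n k) (fun n q => lv (D.M s) q.1) := by
  refine bd_sq hf k ?_
  obtain ⟨C, hC⟩ := D.bM hs
  refine MemLp.of_bound ((D.mM hs).mul (D.mM hs)).aestronglyMeasurable (C * C)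
    (Eventually.of_forall fun ω => ?_)
  rw [norm_mul]
  have h0 := abs_nonneg (D.M s ω)
  exact mul_le_mul (hC ω) (hC ω) (abs_nonneg _) (h0.trans (hC ω))

include hL

/-- the iterate -/
lemma ap_m (hk : k < T) (h : Cl D k) :
    Ap (Ω := St X) (fun n => Pk ν f n k) (mq f k) (fun n q => lv (D.M k) q.1) := by
  obtain ⟨L, hL0, hL⟩ := hL k
  have h1 : Sm (Ω := St X) (fun n => Pk ν f n k) (fun n q => L ^ 2 * k *
      ∑ s ∈ Finset.range k, nq (Hq f s n q - lv (D.H s) q.1)) :=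
    (Sm.sum _ fun s hs => h.H s (Finset.mem_range.1 hs)).const_mul (L ^ 2 * k)
  refine Sm.mono h1 fun n q => ?_
  rw [abs_of_nonneg (nq_nonneg _), abs_of_nonneg (mul_nonneg (by positivity)
    (Finset.sum_nonneg fun _ _ => nq_nonneg _))]
  have h2 : ∀ i, (mq f k n q i - lv (D.M k) q.1 i) ^ 2 ≤
      L ^ 2 * k * ∑ s ∈ Finset.range k, (Hq f s n q i - lv (D.H s) q.1 i) ^ 2 := by
    intro i
    have e1 : mq f k n q i = f k (lab q.1 i) (fun s : Fin k => Hq f s n q i) := by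
      rw [mq, mv]; rfl
    have e2 : lv (D.M k) q.1 i = f k (lab q.1 i) (fun s : Fin k => D.H s (q.1 i)) :=
      (D.hM k hk (q.1 i)).symm
    have e3 : |mq f k n q i - lv (D.M k) q.1 i| ≤
        L * ∑ s ∈ Finset.range k, |Hq f s n q i - lv (D.H s) q.1 i| := by
      rw [e1, e2]
      refine (hL _ _ _).trans (le_of_eq ?_)
      congr 1
      rw [← Fin.sum_univ_eq_sum_range (fun s => |Hq f s n q i - lv (D.H s) q.1 i|)]
      rfl
    calc (mq f k n q i - lv (D.M k) q.1 i) ^ 2 = |mq f k n q i - lv (D.M k) q.1 i| ^ 2 :=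
          (sq_abs _).symm
      _ ≤ (L * ∑ s ∈ Finset.range k, |Hq f s n q i - lv (D.H s) q.1 i|) ^ 2 :=
          pow_le_pow_left₀ (abs_nonneg _) e3 2
      _ = L ^ 2 * (∑ s ∈ Finset.range k, |Hq f s n q i - lv (D.H s) q.1 i|) ^ 2 := by ring
      _ ≤ L ^ 2 * ((Finset.range k).card *
            ∑ s ∈ Finset.range k, |Hq f s n q i - lv (D.H s) q.1 i| ^ 2) :=
          mul_le_mul_of_nonneg_left sq_sum_le_card_mul_sum_sq (by positivity)
      _ = _ := by
          rw [Finset.card_range, ← mul_assoc]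
          simp only [sq_abs]
  calc nq (mq f k n q - lv (D.M k) q.1) = (n : ℝ)⁻¹ * ∑ i, (mq f k n q i - lv (D.M k) q.1 i) ^ 2 :=
        rfl
    _ ≤ (n : ℝ)⁻¹ * ∑ i, L ^ 2 * k * ∑ s ∈ Finset.range k,
          (Hq f s n q i - lv (D.H s) q.1 i) ^ 2 :=
        mul_le_mul_of_nonneg_left (Finset.sum_le_sum fun i _ => h2 i) (by positivity)
    _ = _ := by
        rw [← Finset.mul_sum, Finset.sum_comm]
        simp only [nq, Pi.sub_apply, Finset.mul_sum]
        refine Finset.sum_congr rfl fun s _ => Finset.sum_congr rfl fun i _ => ?_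
        ring

/-- the coefficients of the old directions -/
lemma sm_lam (hk : k < T) (h : Cl D k) {s : ℕ} (hs : s < k) :
    Sm (Ω := St X) (fun n => Pk ν f n k)
      (fun n q => ip (mq f k n q) (eq f s n q) - D.lam k s) := by
  have h1 := (ap_m hf hL D hk h).ip (h.E s hs) (bd_M hf D hk) (bd_E hf D (by omega))
  have h2 := sm_lln hf (ν := ν) (f := f) k (D.memLp_mul_E (t := s) (by omega) (D.memLp_M hk 2))
  rw [D.int_M_E hk hs.le] at h2
  refine (h1.add h2).mono fun n q => le_of_eq ?_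
  congr 1
  simp only [ip, lv]
  ring

lemma ap_w (hk : k < T) (h : Cl D k) :
    Ap (Ω := St X) (fun n => Pk ν f n k) (wq f k)
      (fun n q => D.lam k k • lv (D.E k) q.1) := by
  have h1 := (ap_m hf hL D hk h).sub (Ap.sum (Finset.range k) (F := fun s n q =>
      ip (mq f k n q) (eq f s n q) • eq f s n q) (G := fun s n q => D.lam k s • lv (D.E s) q.1)
    fun s hs => Ap.smul (sm_lam hf hL D hk h (Finset.mem_range.1 hs))
      (h.E s (Finset.mem_range.1 hs))
      (bd_E hf D (by have := Finset.mem_range.1 hs; omega)))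
  refine h1.congr' (fun n hn q => ?_) fun n hn q => ?_
  · have h2 := mv_decomp f (Wm n q.2) (lab q.1) hn k
    exact eq_sub_of_add_eq h2.symm
  · funext i
    simp only [lv, LimData.M, Pi.sub_apply, Finset.sum_apply, Pi.smul_apply, smul_eq_mul,
      Finset.sum_range_succ]
    ring

lemma sm_nw (hk : k < T) (h : Cl D k) :
    Sm (Ω := St X) (fun n => Pk ν f n k) (fun n q => nq (wq f k n q) - D.lam k k ^ 2) := by
  have hB : Bd (Ω := St X) (fun n => Pk ν f n k) (fun n q => D.lam k k • lv (D.E k) q.1) := by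
    have h0 := (Tb.of_bound (μ := fun n => Pk ν f n k) (Ω := St X)
      (Z := fun _ _ => D.lam k k ^ 2) |D.lam k k ^ 2| fun _ _ => le_rfl).mul
      (bd_E hf (k := k) D hk)
    refine Tb.mono h0 fun n q => le_of_eq ?_
    rw [nq_smul]
  have h1 := (ap_w hf hL D hk h).nq hB
  have h2 := (sm_lln hf (ν := ν) (f := f) k (D.memLp_mul_E hk (D.memLp_E hk 2))).const_mul
    (D.lam k k ^ 2)
  rw [D.ortho k hk k hk, if_pos rfl] at h2
  refine (h1.add h2).mono fun n q => le_of_eq ?_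
  congr 1
  rw [nq_smul]
  simp only [nq, lv]
  simp only [← sq]
  ring

lemma sm_sw (hk : k < T) (h : Cl D k) :
    Sm (Ω := St X) (fun n => Pk ν f n k) (fun n q => √(nq (wq f k n q)) - D.lam k k) := by
  have h1 := (sm_nw hf hL D hk h).comp (g := Real.sqrt) Real.continuous_sqrt.continuousAt
  rwa [Real.sqrt_sq (D.pos k hk).le] at h1

/-- the new direction -/
lemma ap_e (hk : k < T) (h : Cl D k) :
    Ap (Ω := St X) (fun n => Pk ν f n k) (eq f k) (fun n q => lv (D.E k) q.1) := by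
  have hpos := D.pos k hk
  have hB : Bd (Ω := St X) (fun n => Pk ν f n k) (fun n q => D.lam k k • lv (D.E k) q.1) := by
    have h0 := (Tb.of_bound (μ := fun n => Pk ν f n k) (Ω := St X)
      (Z := fun _ _ => D.lam k k ^ 2) |D.lam k k ^ 2| fun _ _ => le_rfl).mul
      (bd_E hf (k := k) D hk)
    refine Tb.mono h0 fun n q => le_of_eq ?_
    rw [nq_smul]
  have h1 := (sm_sw hf hL D hk h).comp (g := fun x => x⁻¹) (continuousAt_inv₀ hpos.ne')
  refine (Ap.smul h1 (ap_w hf hL D hk h) hB).congr' (fun n hn q => rfl) fun n hn q => ?_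
  rw [smul_smul, inv_mul_cancel₀ hpos.ne', one_smul]


/-! #### the fresh Gaussian -/

omit hL in
/-- `W_a e_k` is close to the fresh Gaussian vector -/
lemma ap_G (hP : ∀ n, IsProbabilityMeasure (Pk ν f n k)) (hw : Sm (Ω := St X)
    (fun n => Pk ν f n k) (fun n q => nq (wq f k n q) - D.lam k k ^ 2)) (hk : k < T) :
    Ap (Ω := fun n => St X n × (Ix n → ℝ)) (fun n => (Pk ν f n k).prod (gau (Ix n)))
      (fun n q => Wm n q.2 *ᵥ eq f k n q.1) (fun n q => Gv (nz (wq f k n q.1)) q.2) := by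
  have h1 : Sm (Ω := fun n => St X n × (Ix n → ℝ)) (fun n => (Pk ν f n k).prod (gau (Ix n)))
      (fun n q => (nz (wq f k n q.1) ⬝ᵥ (Wm n q.2 *ᵥ nz (wq f k n q.1))) ^ 2) := by
    have hm : ∀ n, Measurable fun q : St X n × (Ix n → ℝ) =>
        (nz (wq f k n q.1) ⬝ᵥ (Wm n q.2 *ᵥ nz (wq f k n q.1))) ^ 2 := by
      intro n
      have h2 : Measurable fun q : St X n × (Ix n → ℝ) => nz (wq f k n q.1) :=
        meas_nz.comp ((meas_wq hf k n).comp measurable_fst)
      have h3 := meas_Wm_mulVec (n := n) (measurable_snd (α := St X n) (β := Ix n → ℝ)) h2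
      refine Measurable.pow_const ?_ 2
      unfold dotProduct
      refine Finset.measurable_sum _ fun i _ => ?_
      exact ((measurable_pi_apply i).comp h2).mul ((measurable_pi_apply i).comp h3)
    refine Sm.of_cond (Ω := St X) (Ω' := fun n => Ix n → ℝ) hm (fun n q => sq_nonneg _)
      (b := fun n : ℕ => 2 / (n : ℝ)) (tendsto_const_div_atTop_nhds_zero_nat 2) fun n hn ω => ?_
    obtain ⟨h4, h5⟩ := form_sq hn (nz (wq f k n ω)) (nz (wq f k n ω))
    refine ⟨h4, ?_⟩
    rw [nz_unit hn] at h5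
    simpa using h5
  have hS : Tendsto (fun n => (Pk ν f n k).prod (gau (Ix n))
      {q : St X n × (Ix n → ℝ) | wq f k n q.1 ≠ 0}ᶜ) atTop (𝓝 0) := by
    have hpos := D.pos k hk
    have h2 := (Sm.prod hw (fun n => gau (Ix n))) (D.lam k k ^ 2) (by positivity)
    refine tendsto_of_tendsto_of_tendsto_of_le_of_le tendsto_const_nhds h2
      (fun _ => zero_le) fun n => measure_mono fun q hq => ?_
    simp only [Set.mem_compl_iff, Set.mem_setOf_eq, not_not] at hq
    simp only [Set.mem_setOf_eq, hq]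
    have : nq (0 : Fin n → ℝ) = 0 := by simp [nq]
    rw [this, zero_sub, abs_neg]
    exact le_abs_self _
  refine Sm.mono_on (h1.const_mul ((1 - (√2)⁻¹) ^ 2)) _ hS fun n hn q hq => le_of_eq ?_
  congr 1
  exact Gv_error hn hq q.2

omit hL in
/-- the components of `W_a e_k` in the old directions are small -/
lemma sm_G (hP : ∀ n, IsProbabilityMeasure (Pk ν f n k)) (r : ℕ) :
    Sm (Ω := fun n => St X n × (Ix n → ℝ)) (fun n => (Pk ν f n k).prod (gau (Ix n)))
      (fun n q => ip (Wm n q.2 *ᵥ eq f k n q.1) (eq f r n q.1)) := by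
  refine Sm.sq_iff ?_
  have hm : ∀ n, Measurable fun q : St X n × (Ix n → ℝ) =>
      ip (Wm n q.2 *ᵥ eq f k n q.1) (eq f r n q.1) ^ 2 := by
    intro n
    have h2 : ∀ j, Measurable fun q : St X n × (Ix n → ℝ) => eq f j n q.1 := fun j =>
      (meas_eq hf j n).comp measurable_fst
    have h3 := meas_Wm_mulVec (n := n) (measurable_snd (α := St X n) (β := Ix n → ℝ)) (h2 k)
    refine Measurable.pow_const ?_ 2
    unfold ip
    refine Measurable.const_mul (Finset.measurable_sum _ fun i _ => ?_) _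
    exact ((measurable_pi_apply i).comp h3).mul ((measurable_pi_apply i).comp (h2 r))
  refine Sm.of_cond (Ω := St X) (Ω' := fun n => Ix n → ℝ) hm (fun n q => sq_nonneg _)
    (b := fun n : ℕ => 2 / (n : ℝ)) (tendsto_const_div_atTop_nhds_zero_nat 2) fun n hn ω => ?_
  have hn' : (0 : ℝ) < n := by exact_mod_cast hn
  obtain ⟨h4, h5⟩ := form_sq hn (eq f r n ω) (eq f k n ω)
  have e : ∀ a : Ix n → ℝ, ip (Wm n a *ᵥ eq f k n ω) (eq f r n ω) ^ 2 =
      ((n : ℝ)⁻¹) ^ 2 * (eq f r n ω ⬝ᵥ (Wm n a *ᵥ eq f k n ω)) ^ 2 := by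
    intro a
    rw [ip_eq_dot, dotProduct_comm]
    ring
  simp only [e]
  refine ⟨h4.const_mul _, ?_⟩
  rw [integral_const_mul]
  have h6 : ∀ j, eq f j n ω ⬝ᵥ eq f j n ω ≤ n := by
    intro j
    have := nq_ev_le f (Wm n ω.2) (lab ω.1) j
    rw [nq_eq_dot, inv_mul_le_iff₀ hn', mul_one] at this
    exact this
  have h7 : (eq f r n ω ⬝ᵥ eq f r n ω) * (eq f k n ω ⬝ᵥ eq f k n ω) ≤ n * n :=
    mul_le_mul (h6 r) (h6 k) (Finset.sum_nonneg fun i _ => mul_self_nonneg _) hn'.le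
  calc ((n : ℝ)⁻¹) ^ 2 * ∫ a, (eq f r n ω ⬝ᵥ (Wm n a *ᵥ eq f k n ω)) ^ 2 ∂(gau (Ix n))
      ≤ ((n : ℝ)⁻¹) ^ 2 * (2 / n * (n * n)) :=
        mul_le_mul_of_nonneg_left (h5.trans (mul_le_mul_of_nonneg_left h7 (by positivity)))
          (by positivity)
    _ = 2 / n := by field_simp

lemma pE_all (hk : k < T) (h : Cl D k) {s : ℕ} (hs : s ≤ k) :
    Ap (Ω := St X) (fun n => Pk ν f n k) (eq f s) (fun n q => lv (D.E s) q.1) := by
  rcases Nat.lt_or_ge s k with h1 | h1
  · exact h.E s h1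
  · have : s = k := by omega
    subst this; exact ap_e hf hL D hk h

/-- the product measure -/
noncomputable abbrev PP (ν : Measure X) (f : (t : ℕ) → X → (Fin t → ℝ) → ℝ) (k n : ℕ) :
    Measure (St X n × (Ix n → ℝ)) := (Pk ν f n k).prod (gau (Ix n))

lemma ap_a2 (hk : k < T) (h : Cl D k) :
    Ap (Ω := fun n => St X n × (Ix n → ℝ)) (PP ν f k)
        (fun n q => ∑ r ∈ Finset.range k,
          ip (Wm n q.2 *ᵥ eq f k n q.1) (eq f r n q.1) • eq f r n q.1)
        (fun n q => ∑ r ∈ Finset.range k, (0 : ℝ) • lv (D.E r) q.1.1) := by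
  haveI hP : ∀ n, IsProbabilityMeasure (Pk ν f n k) := fun n => isProb_Pk f hf ν k
  have key : ∀ r ∈ Finset.range k, Ap (Ω := fun n => St X n × (Ix n → ℝ)) (PP ν f k)
      (fun n q => ip (Wm n q.2 *ᵥ eq f k n q.1) (eq f r n q.1) • eq f r n q.1)
      (fun n q => (0 : ℝ) • lv (D.E r) q.1.1) := by
    intro r hr
    have hr' := Finset.mem_range.1 hr
    have c1 : Sm (Ω := fun n => St X n × (Ix n → ℝ)) (PP ν f k)
        (fun n q => ip (Wm n q.2 *ᵥ eq f k n q.1) (eq f r n q.1) - 0) := by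
      simpa only [sub_zero] using sm_G hf hP r
    have c2 := Ap.prod (Ω := St X) (Ω' := fun n => Ix n → ℝ) (pE_all hf hL D hk h hr'.le)
      (fun n => gau (Ix n))
    have c3 := Tb.prod (Ω := St X) (Ω' := fun n => Ix n → ℝ) (bd_E hf (k := k) D
      (s := r) (by omega)) (fun n => gau (Ix n))
    exact Ap.smul c1 c2 c3
  exact Ap.sum (Ω := fun n => St X n × (Ix n → ℝ)) (μ := PP ν f k) (Finset.range k)
    (F := fun r n q => ip (Wm n q.2 *ᵥ eq f k n q.1) (eq f r n q.1) • eq f r n q.1)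
    (G := fun r n q => (0 : ℝ) • lv (D.E r) q.1.1) key

lemma ap_a3 (hk : k < T) (h : Cl D k) :
    Ap (Ω := St X) (fun n => Pk ν f n k)
        (fun n q => ∑ r ∈ Finset.range k, ip (Yq f r n q) (eq f k n q) • eq f r n q)
        (fun n q => ∑ r ∈ Finset.range k, D.bet k r • lv (D.E r) q.1) := by
  refine Ap.sum (Finset.range k) (F := fun r n q =>
    ip (Yq f r n q) (eq f k n q) • eq f r n q)
    (G := fun r n q => D.bet k r • lv (D.E r) q.1) fun r hr => ?_
  have hr' := Finset.mem_range.1 hr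
  refine Ap.smul ?_ (pE_all hf hL D hk h hr'.le) (bd_E hf D (by omega))
  have h1 := (h.Y r hr').ip (ap_e hf hL D hk h) (bd_Y hf D (by omega)) (bd_E hf D hk)
  have h2 := sm_lln hf (ν := ν) (f := f) k
    (D.memLp_mul_E hk (D.memLp_Y (t := r) (by omega) 2 (by simp)))
  rw [D.int_Y_E hr' hk] at h2
  refine (h1.add h2).mono fun n q => le_of_eq ?_
  congr 1
  simp only [ip, lv]
  ring

/-- the new response -/
lemma ap_newY (hk : k < T) (h : Cl D k) :
    Ap (Ω := fun n => St X n × (Ix n → ℝ)) (PP ν f k)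
      (fun n q => Yq f k n (Ph f k q)) (fun n q => lv (D.Y k) (Ph f k q).1) := by
  haveI hP : ∀ n, IsProbabilityMeasure (Pk ν f n k) := fun n => isProb_Pk f hf ν k
  have a1 := ap_G hf D hP (sm_nw hf hL D hk h) hk
  have a2 := ap_a2 hf hL D hk h
  have a4 := Ap.prod (Ω := St X) (Ω' := fun n => Ix n → ℝ) (ap_a3 hf hL D hk h)
    (fun n => gau (Ix n))
  refine ((a1.sub a2).add a4).congr' (fun n hn q => Yq_Ph_self k q hn) fun n hn q => ?_
  rw [lvY_Ph_self k q D hk]
  simp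

omit hL in
lemma bd_newY (hk : k < T) :
    Bd (Ω := fun n => St X n × (Ix n → ℝ)) (PP ν f k)
      (fun n q => lv (D.Y k) (Ph f k q).1) :=
  Tb.of_map (Ω := fun n => St X n × (Ix n → ℝ)) (Ω' := St X)
    (μ := PP ν f k) (F := fun n => Ph (n := n) f k)
    (Y' := fun n q => nq (lv (D.Y k) q.1)) (fun n => meas_Ph f hf k)
    (bd_Y hf (k := k + 1) D hk)

lemma ap_b1 (hk : k < T) (h : Cl D k) :
    Ap (Ω := St X) (fun n => Pk ν f n k)
        (fun n q => ∑ s ∈ Finset.range k, ip (mq f k n q) (eq f s n q) • Yq f s n q)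
        (fun n q => ∑ s ∈ Finset.range k, D.lam k s • lv (D.Y s) q.1) := by
  refine Ap.sum (Finset.range k) (F := fun s n q =>
    ip (mq f k n q) (eq f s n q) • Yq f s n q)
    (G := fun s n q => D.lam k s • lv (D.Y s) q.1) fun s hs => ?_
  have hs' := Finset.mem_range.1 hs
  exact Ap.smul (sm_lam hf hL D hk h hs') (h.Y s hs') (bd_Y hf D (by omega))

omit hf hL in
lemma lvH_eq {n : ℕ} (hk : k < T) (q : St X n × (Ix n → ℝ)) :
    lv (D.H k) (Ph f k q).1 = ∑ s ∈ Finset.range k, D.lam k s • lv (D.Y s) q.1.1 +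
      D.lam k k • lv (D.Y k) (Ph f k q).1 := by
  funext i
  have e1 : ∀ s ∈ Finset.range k, D.lam k s * D.Y s ((Ph f k q).1 i) =
      D.lam k s * D.Y s (q.1.1 i) := by
    intro s hs
    have := congrFun (lvY_Ph k q D (Finset.mem_range.1 hs) hk) i
    simp only [lv] at this
    rw [this]
  simp only [lv, Pi.add_apply, Finset.sum_apply, Pi.smul_apply, smul_eq_mul]
  rw [D.H_eq hk, Finset.sum_range_succ, Finset.sum_congr rfl e1]

/-- the new field -/
lemma ap_newH (hk : k < T) (h : Cl D k) :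
    Ap (Ω := fun n => St X n × (Ix n → ℝ)) (PP ν f k)
      (fun n q => Hq f k n (Ph f k q)) (fun n q => lv (D.H k) (Ph f k q).1) := by
  haveI hP : ∀ n, IsProbabilityMeasure (Pk ν f n k) := fun n => isProb_Pk f hf ν k
  have b2 := Ap.prod (Ω := St X) (Ω' := fun n => Ix n → ℝ) (ap_b1 hf hL D hk h)
    (fun n => gau (Ix n))
  have b3 := Ap.smul (Sm.prod (Ω := St X) (Ω' := fun n => Ix n → ℝ) (sm_sw hf hL D hk h)
    (fun n => gau (Ix n))) (ap_newY hf hL D hk h) (bd_newY hf D hk)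
  exact (b2.add b3).congr' (fun n hn q => Hq_Ph_self k q hn) fun n hn q => lvH_eq D hk q

omit hL in
/-- transfer to the next stage -/
lemma ap_next {A : ∀ n, St X n → Fin n → ℝ} {F : X × (ℕ → ℝ) → ℝ} (hA : ∀ n, Measurable (A n))
    (hF : Measurable F) (h0 : Ap (Ω := fun n => St X n × (Ix n → ℝ)) (PP ν f k)
      (fun n q => A n (Ph f k q)) (fun n q => lv F (Ph f k q).1)) :
    Ap (Ω := St X) (fun n => Pk ν f n (k + 1)) A (fun n q => lv F q.1) :=
  Sm.map (Ω := fun n => St X n × (Ix n → ℝ)) (Ω' := St X)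
    (μ := PP ν f k) (F := fun n => Ph (n := n) f k)
    (Y' := fun n q => nq (A n q - lv F q.1)) (fun n => meas_Ph f hf k)
    (fun n => meas_nq ((hA n).sub (meas_lv hF))) h0

omit hL in
lemma ap_keep {A : ∀ n, St X n → Fin n → ℝ} {F : X × (ℕ → ℝ) → ℝ}
    (h : Ap (Ω := St X) (fun n => Pk ν f n k) A (fun n q => lv F q.1))
    (hA : ∀ n, Measurable (A n)) (hF : Measurable F)
    (h1 : ∀ n (q : St X n × (Ix n → ℝ)), A n (Ph f k q) = A n q.1)
    (h2 : ∀ n (q : St X n × (Ix n → ℝ)), lv F (Ph f k q).1 = lv F q.1.1) :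
    Ap (Ω := St X) (fun n => Pk ν f n (k + 1)) A (fun n q => lv F q.1) := by
  haveI hP : ∀ n, IsProbabilityMeasure (Pk ν f n k) := fun n => isProb_Pk f hf ν k
  exact ap_next hf hA hF ((Ap.prod (Ω := St X) (Ω' := fun n => Ix n → ℝ) h
    (fun n => gau (Ix n))).congr' (fun n hn q => h1 n q) fun n hn q => h2 n q)

/-- **the step** -/
theorem Cl.succ (hk : k < T) (h : Cl D k) : Cl D (k + 1) := by
  refine ⟨fun s hs => ?_, fun s hs => ?_, fun s hs => ?_⟩
  · rcases Nat.lt_or_ge s k with h1 | h1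
    · exact ap_keep hf (h.H s h1) (meas_Hq hf s) (D.mH (by omega)) (fun n q => Hq_Ph k q h1)
        fun n q => lvH_Ph k q D h1 hk
    · have : s = k := by omega
      subst this
      exact ap_next hf (meas_Hq hf s) (D.mH hk) (ap_newH hf hL D hk h)
  · exact ap_keep hf (pE_all hf hL D hk h (by omega)) (meas_eq hf s) (D.mE s (by omega))
      (fun n q => eq_Ph k q (by omega)) fun n q => lvE_Ph k q D (by omega) hk
  · rcases Nat.lt_or_ge s k with h1 | h1
    · exact ap_keep hf (h.Y s h1) (meas_Yq hf s) (D.mY (by omega)) (fun n q => Yq_Ph k q h1)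
        fun n q => lvY_Ph k q D h1 hk
    · have : s = k := by omega
      subst this
      exact ap_next hf (meas_Yq hf s) (D.mY hk) (ap_newY hf hL D hk h)

/-- **state evolution**, coupling form -/
theorem cl_all : ∀ k ≤ T, Cl D k
  | 0, _ => ⟨fun s hs => absurd hs (Nat.not_lt_zero s), fun s hs => absurd hs (Nat.not_lt_zero s),
      fun s hs => absurd hs (Nat.not_lt_zero s)⟩
  | k + 1, hk => Cl.succ hf hL D (by omega) (cl_all k (by omega))

end

end Vale.Agent.P367.SE
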