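import Vale.Agent.P367.SE.Det

/-!
# P367 SE: convergence of the iterates
-/

open MeasureTheory ProbabilityTheory Matrix Filter Topology

namespace Vale.Agent.P367.SE

set_option linter.all false

variable {X : Type} [MeasurableSpace X] {ν : Measure X} [IsProbabilityMeasure ν]
  {f : (t : ℕ) → X → (Fin t → ℝ) → ℝ} {T : ℕ}

/-- the state space of the coupling -/
abbrev St (X : Type) (n : ℕ) : Type := (Fin n → X × (ℕ → ℝ)) × (Ix n → ℝ)

/-- a function of a row, on all rows -/
def lv {n : ℕ} (F : X × (ℕ → ℝ) → ℝ) (y : Fin n → X × (ℕ → ℝ)) : Fin n → ℝ := fun i => F (y i)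

namespace LimData

variable (D : LimData ν f T)

/-- the limit of `W e_s` -/
noncomputable def Y (s : ℕ) (ω : X × (ℕ → ℝ)) : ℝ :=
  ω.2 s + ∑ r ∈ Finset.range s, D.bet s r * D.E r ω

lemma H_eq {t : ℕ} (ht : t < T) (ω : X × (ℕ → ℝ)) :
    D.H t ω = ∑ s ∈ Finset.range (t + 1), D.lam t s * D.Y s ω := D.hH t ht ω

lemma dep' {t : ℕ} (ht : t < T) {ω ω' : X × (ℕ → ℝ)} (h1 : ω.1 = ω'.1)
    (h2 : ∀ r < t, ω.2 r = ω'.2 r) : D.E t ω = D.E t ω' := D.dep t ht ω ω' h1 h2

lemma Y_dep {t : ℕ} (ht : t < T) {ω ω' : X × (ℕ → ℝ)} (h1 : ω.1 = ω'.1)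
    (h2 : ∀ r ≤ t, ω.2 r = ω'.2 r) : D.Y t ω = D.Y t ω' := by
  unfold Y
  rw [h2 t le_rfl]
  congr 1
  refine Finset.sum_congr rfl fun r hr => ?_
  have hr' := Finset.mem_range.1 hr
  rw [D.dep' (by omega) h1 fun s hs => h2 s (by omega)]

lemma H_dep {t : ℕ} (ht : t < T) {ω ω' : X × (ℕ → ℝ)} (h1 : ω.1 = ω'.1)
    (h2 : ∀ r ≤ t, ω.2 r = ω'.2 r) : D.H t ω = D.H t ω' := by
  rw [D.H_eq ht, D.H_eq ht]
  refine Finset.sum_congr rfl fun s hs => ?_
  have hs' := Finset.mem_range.1 hs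
  rw [D.Y_dep (by omega) h1 fun r hr => h2 r (by omega)]

lemma mY {t : ℕ} (ht : t < T) : Measurable (D.Y t) := by
  unfold Y
  refine Measurable.add ((measurable_pi_apply t).comp measurable_snd) ?_
  refine Finset.measurable_sum _ fun r hr => ?_
  exact (D.mE r (by have := Finset.mem_range.1 hr; omega)).const_mul _

lemma mH {t : ℕ} (ht : t < T) : Measurable (D.H t) := by
  have : D.H t = fun ω => ∑ s ∈ Finset.range (t + 1), D.lam t s * D.Y s ω :=
    funext fun ω => D.H_eq ht ω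
  rw [this]
  refine Finset.measurable_sum _ fun s hs => ?_
  exact (D.mY (by have := Finset.mem_range.1 hs; omega)).const_mul _

end LimData

/-! ### Gaussian coordinates of `rho` -/


lemma rho_coord (s : ℕ) : (rho ν).map (fun ω => ω.2 s) = gaussianReal 0 1 := by
  have h1 : (rho ν).map Prod.snd = Measure.infinitePi fun _ : ℕ => gaussianReal 0 1 := by
    rw [rho, Measure.map_snd_prod, measure_univ, one_smul]
  have h2 : (fun ω : X × (ℕ → ℝ) => ω.2 s) = (fun z : ℕ → ℝ => z s) ∘ Prod.snd := rfl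
  rw [h2, ← Measure.map_map (measurable_pi_apply s) measurable_snd, h1]
  exact Measure.infinitePi_map_eval _ s

lemma memLp_coord (s : ℕ) (p : ENNReal) (hp : p ≠ ⊤) :
    MemLp (fun ω : X × (ℕ → ℝ) => ω.2 s) p (rho ν) := by
  have h := memLp_id_gaussianReal' (μ := 0) (v := 1) p hp
  rw [← rho_coord (ν := ν) s] at h
  exact h.comp_of_map ((measurable_pi_apply s).comp measurable_snd).aemeasurable


namespace LimData

variable (D : LimData ν f T)

lemma memLp_E {t : ℕ} (ht : t < T) (p : ENNReal) : MemLp (D.E t) p (rho ν) := by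
  obtain ⟨C, hC⟩ := D.bE t ht
  exact MemLp.of_bound (D.mE t ht).aestronglyMeasurable C (Eventually.of_forall fun ω => hC ω)

lemma memLp_Y {t : ℕ} (ht : t < T) (p : ENNReal) (hp : p ≠ ⊤) : MemLp (D.Y t) p (rho ν) := by
  unfold Y
  refine (memLp_coord t p hp).add (memLp_finset_sum _ fun r hr => ?_)
  exact (D.memLp_E (by have := Finset.mem_range.1 hr; omega) p).const_mul _

/-- product of a bounded function with a square integrable one -/
lemma memLp_mul_E {t : ℕ} (ht : t < T) {F : X × (ℕ → ℝ) → ℝ} (hF : MemLp F 2 (rho ν)) :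
    MemLp (fun ω => F ω * D.E t ω) 2 (rho ν) := by
  obtain ⟨C, hC⟩ := D.bE t ht
  refine MemLp.mono (g := fun ω => C * F ω) (hF.const_mul C)
    (hF.aestronglyMeasurable.mul (D.mE t ht).aestronglyMeasurable)
    (Eventually.of_forall fun ω => ?_)
  rw [norm_mul, norm_mul, Real.norm_eq_abs C, mul_comm]
  refine mul_le_mul_of_nonneg_right ?_ (norm_nonneg _)
  exact (hC ω).trans (le_abs_self C)

lemma int_Y_E {r k : ℕ} (hr : r < k) (hk : k < T) :
    ∫ ω, D.Y r ω * D.E k ω ∂(rho ν) = D.bet k r := by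
  have h1 : ∀ ω, D.Y r ω * D.E k ω = ω.2 r * D.E k ω +
      ∑ s ∈ Finset.range r, D.bet r s * (D.E s ω * D.E k ω) := by
    intro ω
    rw [Y, add_mul, Finset.sum_mul]
    congr 1
    exact Finset.sum_congr rfl fun s _ => by ring
  simp only [h1]
  rw [integral_add, integral_finset_sum]
  · have h2 : ∑ s ∈ Finset.range r, ∫ ω, D.bet r s * (D.E s ω * D.E k ω) ∂(rho ν) = 0 := by
      refine Finset.sum_eq_zero fun s hs => ?_
      have hs' := Finset.mem_range.1 hs
      rw [integral_const_mul, D.ortho s (by omega) k hk, if_neg (by omega), mul_zero]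
    rw [h2, add_zero]
    exact (D.hbet k hk r hr).symm
  · intro s hs
    have hs' := Finset.mem_range.1 hs
    exact ((D.memLp_mul_E hk (D.memLp_E (by omega) 2)).integrable one_le_two).const_mul _
  · exact (D.memLp_mul_E hk (memLp_coord r 2 (by simp))).integrable one_le_two
  · refine integrable_finset_sum _ fun s hs => ?_
    have hs' := Finset.mem_range.1 hs
    exact ((D.memLp_mul_E hk (D.memLp_E (by omega) 2)).integrable one_le_two).const_mul _

/-- the limit of `m^t` -/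
noncomputable def M (t : ℕ) (ω : X × (ℕ → ℝ)) : ℝ :=
  ∑ s ∈ Finset.range (t + 1), D.lam t s * D.E s ω

lemma int_M_E {t s : ℕ} (ht : t < T) (hs : s ≤ t) :
    ∫ ω, D.M t ω * D.E s ω ∂(rho ν) = D.lam t s := by
  have h1 : ∀ ω, D.M t ω * D.E s ω =
      ∑ r ∈ Finset.range (t + 1), D.lam t r * (D.E r ω * D.E s ω) := by
    intro ω
    rw [M, Finset.sum_mul]
    exact Finset.sum_congr rfl fun r _ => by ring
  simp only [h1]
  rw [integral_finset_sum]
  · rw [Finset.sum_eq_single s]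
    · rw [integral_const_mul, D.ortho s (by omega) s (by omega), if_pos rfl, mul_one]
    · intro r hr hrs
      have hr' := Finset.mem_range.1 hr
      rw [integral_const_mul, D.ortho r (by omega) s (by omega), if_neg hrs, mul_zero]
    · intro h
      exact absurd (Finset.mem_range.2 (by omega)) h
  · intro r hr
    have hr' := Finset.mem_range.1 hr
    exact ((D.memLp_mul_E (by omega) (D.memLp_E (t := r) (by omega) 2)).integrable
      one_le_two).const_mul _

lemma bM {t : ℕ} (ht : t < T) : ∃ C : ℝ, ∀ ω, |D.M t ω| ≤ C := by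
  choose! C hC using D.bE
  refine ⟨∑ s ∈ Finset.range (t + 1), |D.lam t s| * C s, fun ω => ?_⟩
  refine (Finset.abs_sum_le_sum_abs _ _).trans (Finset.sum_le_sum fun s hs => ?_)
  have hs' := Finset.mem_range.1 hs
  rw [abs_mul]
  exact mul_le_mul_of_nonneg_left (hC s (by omega) ω) (abs_nonneg _)

lemma mM {t : ℕ} (ht : t < T) : Measurable (D.M t) := by
  unfold M
  refine Finset.measurable_sum _ fun s hs => ?_
  exact (D.mE s (by have := Finset.mem_range.1 hs; omega)).const_mul _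

lemma memLp_M {t : ℕ} (ht : t < T) (p : ENNReal) : MemLp (D.M t) p (rho ν) := by
  obtain ⟨C, hC⟩ := D.bM ht
  exact MemLp.of_bound (D.mM ht).aestronglyMeasurable C (Eventually.of_forall fun ω => hC ω)

end LimData

/-! ### law of large numbers in probability -/

lemma sm_lln_rhon {Ψ : X × (ℕ → ℝ) → ℝ} (h : MemLp Ψ 2 (rho ν)) :
    Sm (fun n => rhon ν n) (fun n y => (n : ℝ)⁻¹ * ∑ i, Ψ (y i) - ∫ ω, Ψ ω ∂(rho ν)) := by
  haveI : ∀ n, IsProbabilityMeasure (rhon ν n) := fun n => by unfold rhon; infer_instance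
  refine Sm.sq_iff (Sm.of_integral (fun n _ y => sq_nonneg _) (fun n hn => (lln ν hn Ψ h).1)
    (a := fun n => (n : ℝ)⁻¹ * ∫ ω, Ψ ω ^ 2 ∂(rho ν)) ?_ (fun n hn => (lln ν hn Ψ h).2))
  have := (tendsto_inv_atTop_nhds_zero_nat (𝕜 := ℝ)).mul_const (∫ ω, Ψ ω ^ 2 ∂(rho ν))
  simpa using this

section law

variable (hf : ∀ t, Measurable (Function.uncurry (f t)))
include hf

/-- law of large numbers for the rows of the coupling -/
lemma sm_lln (k : ℕ) {Ψ : X × (ℕ → ℝ) → ℝ} (h : MemLp Ψ 2 (rho ν)) :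
    Sm (Ω := St X) (fun n => Pk ν f n k)
      (fun n q => (n : ℝ)⁻¹ * ∑ i, Ψ (q.1 i) - ∫ ω, Ψ ω ∂(rho ν)) := by
  intro ε hε
  refine tendsto_of_tendsto_of_tendsto_of_le_of_le' tendsto_const_nhds (sm_lln_rhon h ε hε)
    (Eventually.of_forall fun _ => zero_le) ?_
  filter_upwards [eventually_gt_atTop 0] with n hn
  have h1 := Pk_rows f hf hn ν k
  rw [← h1]
  exact Measure.le_map_apply (f := fun q : St X n => q.1) measurable_fst.aemeasurable _

end law

end Vale.Agent.P367.SE
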