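import Vale.Agent.P367.SE.Main

/-!
# P367 SE: one step of the induction
-/

open MeasureTheory ProbabilityTheory Matrix Filter Topology

namespace Vale.Agent.P367.SE

set_option linter.all false

variable {X : Type} [MeasurableSpace X] {ν : Measure X} [IsProbabilityMeasure ν]
  {f : (t : ℕ) → X → (Fin t → ℝ) → ℝ} {T : ℕ}

/-- control by conditional expectations -/
lemma Sm.of_cond {Ω Ω' : ℕ → Type} [∀ n, MeasurableSpace (Ω n)] [∀ n, MeasurableSpace (Ω' n)]
    {μ : ∀ n, Measure (Ω n)} {κ : ∀ n, Measure (Ω' n)} [∀ n, IsProbabilityMeasure (μ n)]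
    [∀ n, IsProbabilityMeasure (κ n)] {F : ∀ n, Ω n × Ω' n → ℝ} (hF : ∀ n, Measurable (F n))
    (h0 : ∀ n q, 0 ≤ F n q) {b : ℕ → ℝ} (hb : Tendsto b atTop (𝓝 0))
    (h : ∀ n, 0 < n → ∀ ω, Integrable (fun a => F n (ω, a)) (κ n) ∧
      ∫ a, F n (ω, a) ∂(κ n) ≤ b n) :
    Sm (fun n => (μ n).prod (κ n)) F := by
  have hm : ∀ n, Measurable fun ω => ∫ a, F n (ω, a) ∂(κ n) := fun n =>
    ((hF n).stronglyMeasurable.integral_prod_right').measurable
  have hi : ∀ n, 0 < n → Integrable (F n) ((μ n).prod (κ n)) := by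
    intro n hn
    refine (integrable_prod_iff (hF n).aestronglyMeasurable).2
      ⟨Eventually.of_forall fun ω => (h n hn ω).1, ?_⟩
    have e : (fun ω => ∫ a, ‖F n (ω, a)‖ ∂(κ n)) = fun ω => ∫ a, F n (ω, a) ∂(κ n) := by
      funext ω
      congr 1
      funext a
      rw [Real.norm_eq_abs, abs_of_nonneg (h0 n _)]
    rw [e]
    refine Integrable.of_bound (hm n).aestronglyMeasurable (b n) (Eventually.of_forall fun ω => ?_)
    rw [Real.norm_eq_abs, abs_of_nonneg (integral_nonneg fun a => h0 n _)]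
    exact (h n hn ω).2
  refine Sm.of_integral (fun n _ q => h0 n q) hi hb fun n hn => ?_
  rw [integral_prod _ (hi n hn)]
  calc ∫ ω, ∫ a, F n (ω, a) ∂(κ n) ∂(μ n) ≤ ∫ ω, b n ∂(μ n) :=
        integral_mono (hi n hn).integral_prod_left (integrable_const _) fun ω => (h n hn ω).2
    _ = b n := by simp

lemma Ap.congr' {Ω : ℕ → Type} [∀ n, MeasurableSpace (Ω n)] {μ : ∀ n, Measure (Ω n)}
    {A B A' B' : ∀ n, Ω n → Fin n → ℝ} (h : Ap μ A B) (hA : ∀ n, 0 < n → ∀ ω, A' n ω = A n ω)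
    (hB : ∀ n, 0 < n → ∀ ω, B' n ω = B n ω) : Ap μ A' B' :=
  Sm.congr h fun n hn ω => by rw [hA n hn ω, hB n hn ω]

lemma Ap.prod {Ω Ω' : ℕ → Type} [∀ n, MeasurableSpace (Ω n)] [∀ n, MeasurableSpace (Ω' n)]
    {μ : ∀ n, Measure (Ω n)} {A B : ∀ n, Ω n → Fin n → ℝ} (h : Ap μ A B)
    (κ : ∀ n, Measure (Ω' n)) [∀ n, IsProbabilityMeasure (κ n)] [∀ n, SFinite (μ n)] :
    Ap (fun n => (μ n).prod (κ n)) (fun n q => A n q.1) (fun n q => B n q.1) :=
  Sm.prod h κ

/-- quantities of the state -/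
noncomputable def mq (f : (t : ℕ) → X → (Fin t → ℝ) → ℝ) (k n : ℕ) (q : St X n) : Fin n → ℝ :=
  mv f (Wm n q.2) (lab q.1) k
noncomputable def wq (f : (t : ℕ) → X → (Fin t → ℝ) → ℝ) (k n : ℕ) (q : St X n) : Fin n → ℝ :=
  wv f (Wm n q.2) (lab q.1) k
noncomputable def eq (f : (t : ℕ) → X → (Fin t → ℝ) → ℝ) (k n : ℕ) (q : St X n) : Fin n → ℝ :=
  ev f (Wm n q.2) (lab q.1) k
noncomputable def Yq (f : (t : ℕ) → X → (Fin t → ℝ) → ℝ) (k n : ℕ) (q : St X n) : Fin n → ℝ :=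
  Wm n q.2 *ᵥ ev f (Wm n q.2) (lab q.1) k
noncomputable def Hq (f : (t : ℕ) → X → (Fin t → ℝ) → ℝ) (k n : ℕ) (q : St X n) : Fin n → ℝ :=
  Hv f (Wm n q.2) (lab q.1) k

section meas

omit [IsProbabilityMeasure ν]
variable (hf : ∀ t, Measurable (Function.uncurry (f t)))
include hf

omit hf in
lemma meas_lq {n : ℕ} :
    Measurable (fun q : St X n => (lab q.1, q.2)) := by
  refine Measurable.prodMk ?_ measurable_snd
  exact measurable_pi_lambda _ fun i => measurable_fst.comp ((measurable_pi_apply i).comp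
    measurable_fst)

lemma meas_mq (k n : ℕ) : Measurable (mq f k n) :=
  (meas_mv (n := n) f hf k).comp meas_lq

lemma meas_wq (k n : ℕ) : Measurable (wq f k n) := by
  refine measurable_pi_lambda _ fun i => ?_
  have e : ∀ q, wq f k n q i = ∑ j, Pm f (Wm n q.2) (lab q.1) k i j * mq f k n q j := fun q => rfl
  simp only [e]
  refine Finset.measurable_sum _ fun j _ => ?_
  exact ((meas_Pm (n := n) f hf k i j).comp meas_lq).mul
    ((measurable_pi_apply j).comp (meas_mq hf k n))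

omit hf in
lemma meas_nq {n : ℕ} {α : Type*} [MeasurableSpace α] {v : α → Fin n → ℝ} (hv : Measurable v) :
    Measurable (fun a => nq (v a)) := by
  unfold nq
  refine Measurable.const_mul (Finset.measurable_sum _ fun i _ => ?_) _
  exact ((measurable_pi_apply i).comp hv).pow_const 2

lemma meas_eq (k n : ℕ) : Measurable (eq f k n) := by
  refine measurable_pi_lambda _ fun i => ?_
  have e : ∀ q, eq f k n q i = (√(nq (wq f k n q)))⁻¹ * wq f k n q i := fun q => rfl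
  simp only [e]
  exact (((meas_nq (meas_wq hf k n)).sqrt).inv).mul ((measurable_pi_apply i).comp (meas_wq hf k n))

omit hf in
lemma meas_Wm_mulVec {n : ℕ} {α : Type*} [MeasurableSpace α] {a : α → Ix n → ℝ}
    {v : α → Fin n → ℝ} (ha : Measurable a) (hv : Measurable v) :
    Measurable (fun x => Wm n (a x) *ᵥ v x) := by
  refine measurable_pi_lambda _ fun i => ?_
  have e : ∀ x, (Wm n (a x) *ᵥ v x) i =
      ∑ j, (a x (i, j) + a x (j, i)) / √(2 * (n : ℝ)) * v x j := fun x => rfl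
  simp only [e]
  refine Finset.measurable_sum _ fun j _ => ?_
  have h1 : Measurable fun x => a x (i, j) := (measurable_pi_apply _).comp ha
  have h2 : Measurable fun x => a x (j, i) := (measurable_pi_apply _).comp ha
  have h3 : Measurable fun x => v x j := (measurable_pi_apply _).comp hv
  exact ((h1.add h2).div_const _).mul h3

lemma meas_Yq (k n : ℕ) : Measurable (Yq f k n) := meas_Wm_mulVec measurable_snd (meas_eq hf k n)

lemma meas_Hq (k n : ℕ) : Measurable (Hq f k n) := meas_Wm_mulVec measurable_snd (meas_mq hf k n)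

omit hf in
lemma meas_lv {n : ℕ} {F : X × (ℕ → ℝ) → ℝ} (hF : Measurable F) :
    Measurable (fun q : St X n => lv F q.1) :=
  measurable_pi_lambda _ fun i => hF.comp ((measurable_pi_apply i).comp measurable_fst)

end meas

/-! ### relations between the old and the new state -/

section rel

variable {n : ℕ} (k : ℕ) (q : St X n × (Ix n → ℝ))

lemma lab_upd (y : Fin n → X × (ℕ → ℝ)) (g : Fin n → ℝ) : lab (upd k y g) = lab y := rfl

lemma eq_Ph {s : ℕ} (hs : s ≤ k) : eq f s n (Ph f k q) = eq f s n q.1 :=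
  ev_Rs f k ((lab q.1.1, q.1.2), q.2) hs

lemma mq_Ph {s : ℕ} (hs : s ≤ k) : mq f s n (Ph f k q) = mq f s n q.1 :=
  mv_Rs f k ((lab q.1.1, q.1.2), q.2) hs

lemma Hq_Ph {s : ℕ} (hs : s < k) : Hq f s n (Ph f k q) = Hq f s n q.1 :=
  Hv_Rs f k ((lab q.1.1, q.1.2), q.2) hs

lemma Yq_Ph {s : ℕ} (hs : s < k) : Yq f s n (Ph f k q) = Yq f s n q.1 := by
  have h1 : Yq f s n (Ph f k q) = Wm n (Rs f k ((lab q.1.1, q.1.2), q.2)).2 *ᵥ
      eq f s n (Ph f k q) := rfl
  rw [h1, eq_Ph k q hs.le]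
  exact Rs_mulVec f k ((lab q.1.1, q.1.2), q.2) (Pm_ev_lt f _ _ hs)

lemma Yq_Ph_self (hn : 0 < n) : Yq f k n (Ph f k q) = Wm n q.2 *ᵥ eq f k n q.1 -
      ∑ r ∈ Finset.range k, ip (Wm n q.2 *ᵥ eq f k n q.1) (eq f r n q.1) • eq f r n q.1 +
      ∑ r ∈ Finset.range k, ip (Yq f r n q.1) (eq f k n q.1) • eq f r n q.1 := by
  have h1 : Yq f k n (Ph f k q) = Wm n (Rs f k ((lab q.1.1, q.1.2), q.2)).2 *ᵥ
      eq f k n (Ph f k q) := rfl
  rw [h1, eq_Ph k q le_rfl]
  exact Rs_ev f k ((lab q.1.1, q.1.2), q.2) hn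

lemma Hq_Ph_self (hn : 0 < n) : Hq f k n (Ph f k q) =
    ∑ s ∈ Finset.range k, ip (mq f k n q.1) (eq f s n q.1) • Yq f s n q.1 +
    √(nq (wq f k n q.1)) • Yq f k n (Ph f k q) := by
  have h1 : Hq f k n (Ph f k q) = Wm n (Rs f k ((lab q.1.1, q.1.2), q.2)).2 *ᵥ
      mq f k n (Ph f k q) := rfl
  have h2 : Yq f k n (Ph f k q) = Wm n (Rs f k ((lab q.1.1, q.1.2), q.2)).2 *ᵥ
      eq f k n (Ph f k q) := rfl
  rw [h1, h2, mq_Ph k q le_rfl, eq_Ph k q le_rfl]
  exact Rs_Hv f k ((lab q.1.1, q.1.2), q.2) hn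

variable (D : LimData ν f T)

lemma lvE_Ph {s : ℕ} (hs : s ≤ k) (hk : k < T) :
    lv (D.E s) (Ph f k q).1 = lv (D.E s) q.1.1 := by
  funext i
  refine D.dep' (by omega) rfl fun r hr => ?_
  show Function.update _ _ _ r = _
  rw [Function.update_of_ne (by omega)]

lemma lvY_Ph {s : ℕ} (hs : s < k) (hk : k < T) :
    lv (D.Y s) (Ph f k q).1 = lv (D.Y s) q.1.1 := by
  funext i
  refine D.Y_dep (by omega) rfl fun r hr => ?_
  show Function.update _ _ _ r = _
  rw [Function.update_of_ne (by omega)]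

lemma lvH_Ph {s : ℕ} (hs : s < k) (hk : k < T) :
    lv (D.H s) (Ph f k q).1 = lv (D.H s) q.1.1 := by
  funext i
  refine D.H_dep (by omega) rfl fun r hr => ?_
  show Function.update _ _ _ r = _
  rw [Function.update_of_ne (by omega)]

lemma lvY_Ph_self (hk : k < T) : lv (D.Y k) (Ph f k q).1 = Gv (nz (wq f k n q.1)) q.2 +
    ∑ r ∈ Finset.range k, D.bet k r • lv (D.E r) q.1.1 := by
  funext i
  have h1 : ∀ r ∈ Finset.range k, D.bet k r * D.E r ((Ph f k q).1 i) =
      D.bet k r * D.E r (q.1.1 i) := by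
    intro r hr
    have h2 := congrFun (lvE_Ph k q D (Finset.mem_range.1 hr).le hk) i
    simp only [lv] at h2
    rw [h2]
  simp only [lv, LimData.Y, Pi.add_apply, Finset.sum_apply, Pi.smul_apply, smul_eq_mul]
  rw [Finset.sum_congr rfl h1]
  congr 1
  show Function.update _ _ _ k = _
  rw [Function.update_self]
  rfl

end rel

end Vale.Agent.P367.SE
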